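import Vale.Agent.P148.R2.H258.A9

namespace Vale.Agent.P148.R2.H258

open Function ComplexConjugate

namespace Tri

variable {V D : Type*} (T : Tri V D)

theorem cls_not {σ : V → Bool} {d : D} [Fintype D] (h : ¬ T.Mi σ d) (Θ : D → ℂ) :
    T.cls σ d Θ = 0 := by
  unfold cls
  apply Finset.sum_eq_zero
  intro e _
  rw [if_neg]
  intro hh
  exact h hh.2.1

theorem norm_tau {τ : ℂ} (hτ : τ ^ 2 + τ + 1 = 0) : ‖τ‖ = 1 := by
  have h3 := tau_pow_three hτ
  have : ‖τ‖ ^ 3 = 1 := by rw [← norm_pow, h3, norm_one]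
  exact (pow_eq_one_iff_of_nonneg (norm_nonneg _) (by norm_num)).1 this

theorem cc_eq_zero [Fintype V] [Finite D] (hP : T.Planar) {o d : D} (ho : T.Good o)
    (hd : ¬ T.Good d) : T.cc o d = 0 := by
  have : T.cnt o d = 0 := by
    unfold cnt
    rw [Nat.card_eq_zero]
    left
    constructor
    rintro ⟨σ, hr⟩
    exact hd (T.good_of_rel hP hr ho.2.2)
  unfold cc
  rw [this]; simp

open Classical in
/-- Bessel inequality for the class probabilities of the outer face. -/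
theorem bessel [Fintype V] [Fintype D] (hP : T.Planar) {τ : ℂ} (hτ : τ ^ 2 + τ + 1 = 0) {o : D}
    (ho : T.Good o) : ∑ d, (if T.InFace o d then (0 : ℝ) else ‖T.UU τ o d‖ ^ 2) ≤ 3 := by
  set Θ : D → ℂ := fun d => if T.InFace o d then 0 else T.UU τ o d with hΘ
  have hc := conj_tau hτ
  have hn1 := norm_tau hτ
  have hrot : ∀ d, Θ (T.nxt d) = τ ^ 2 * Θ d := by
    intro d
    simp only [hΘ]
    by_cases hd : T.InFace o d
    · rw [if_pos hd, if_pos (T.inFace_nxt.2 hd), mul_zero]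
    · rw [if_neg hd, if_neg (fun h => hd (T.inFace_nxt.1 h))]
      unfold InFace at hd
      push Not at hd
      exact T.UU_nxt hP hτ hd.1 hd.2.1 hd.2.2
  have hgood : ∀ d, ¬ T.Good d → Θ d = 0 := by
    intro d hd
    simp only [hΘ]
    split_ifs
    · rfl
    · unfold UU
      rw [T.cc_eq_zero hP ho hd, T.cc_eq_zero hP ho.nxt hd, T.cc_eq_zero hP ho.nxt.nxt hd]
      ring
  set B : ℝ := ∑ d, ‖Θ d‖ ^ 2 with hB
  have hBeq : ∑ d, (if T.InFace o d then (0 : ℝ) else ‖T.UU τ o d‖ ^ 2) = B := by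
    rw [hB]
    apply Finset.sum_congr rfl
    intro d _
    simp only [hΘ]
    split_ifs
    · simp
    · rfl
  rw [hBeq]
  have hB0 : 0 ≤ B := Finset.sum_nonneg (fun d _ => by positivity)
  set n := Fintype.card V with hn
  set E : (V → Bool) → ℝ := fun σ =>
    (∑ d, ∑ e, (if T.Rel σ d e then Θ d * conj (Θ e) else 0)).re with hE
  have hEsum : 4 * ∑ σ, E σ = 2 ^ n * B := by
    have h1 := T.energy hP hτ hrot hrot hgood
    have h2 : ∑ d, Θ d * conj (Θ d) = (B : ℂ) := by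
      rw [hB]
      push_cast
      apply Finset.sum_congr rfl
      intro d _
      rw [Complex.mul_conj, Complex.normSq_eq_norm_sq]
      push_cast; rfl
    rw [h2] at h1
    have h3 := congrArg Complex.re h1
    have h4 : ((4 : ℂ) * ∑ σ : V → Bool, ∑ d, ∑ e,
        (if T.Rel σ d e then Θ d * conj (Θ e) else 0)).re = 4 * ∑ σ, E σ := by
      simp only [hE]
      rw [show (4 : ℂ) = ((4 : ℝ) : ℂ) by norm_num, Complex.re_ofReal_mul, Complex.re_sum]
    have h5 : ((2 : ℂ) ^ Fintype.card V * (B : ℂ)).re = 2 ^ n * B := by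
      rw [show (2 : ℂ) ^ Fintype.card V = ((2 ^ n : ℝ) : ℂ) by push_cast; rfl,
        ← Complex.ofReal_mul, Complex.ofReal_re]
    rw [h4, h5] at h3
    exact h3
  set Y : (V → Bool) → ℂ := fun σ => T.cls σ o Θ + τ ^ 2 * T.cls σ (T.nxt o) Θ +
    τ * T.cls σ (T.nxt (T.nxt o)) Θ with hY
  set q : (V → Bool) → ℝ := fun σ => (if T.Mi σ o then 1 else 0) + (if T.Mi σ (T.nxt o) then 1 else 0) +
    (if T.Mi σ (T.nxt (T.nxt o)) then 1 else 0) with hq
  have hYle : ∀ σ, ‖Y σ‖ ^ 2 ≤ E σ ∧ ‖Y σ‖ = q σ * ‖Y σ‖ ∧ q σ ^ 2 = q σ := by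
    intro σ
    have hE0 : 0 ≤ E σ := le_trans (by positivity) (T.cls_le σ o Θ)
    by_cases m0 : T.Mi σ o
    · have m1 := T.mi_face1 m0
      have m2 := T.mi_face2 m0
      have hYo : Y σ = T.cls σ o Θ := by
        simp only [hY]
        rw [T.cls_not m1, T.cls_not m2]; ring
      refine ⟨by rw [hYo]; exact T.cls_le σ o Θ, ?_, ?_⟩ <;> simp [hq, m0, m1, m2]
    by_cases m1 : T.Mi σ (T.nxt o)
    · have m2 := T.mi_face1 m1
      have hYo : Y σ = τ ^ 2 * T.cls σ (T.nxt o) Θ := by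
        simp only [hY]
        rw [T.cls_not m0, T.cls_not m2]; ring
      refine ⟨?_, ?_, ?_⟩
      · rw [hYo, norm_mul, norm_pow, hn1, one_pow, one_mul]; exact T.cls_le σ _ Θ
      · simp [hq, m0, m1, m2]
      · simp [hq, m0, m1, m2]
    by_cases m2 : T.Mi σ (T.nxt (T.nxt o))
    · have hYo : Y σ = τ * T.cls σ (T.nxt (T.nxt o)) Θ := by
        simp only [hY]
        rw [T.cls_not m0, T.cls_not m1]; ring
      refine ⟨?_, ?_, ?_⟩
      · rw [hYo, norm_mul, hn1, one_mul]; exact T.cls_le σ _ Θ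
      · simp [hq, m0, m1, m2]
      · simp [hq, m0, m1, m2]
    · have hYo : Y σ = 0 := by
        simp only [hY]
        rw [T.cls_not m0, T.cls_not m1, T.cls_not m2]; ring
      refine ⟨?_, ?_, ?_⟩
      · rw [hYo, norm_zero]
        have : (0 : ℝ) ^ 2 = 0 := by norm_num
        rw [this]; exact hE0
      · simp [hYo]
      · simp [hq, m0, m1, m2]
  have hqsum : 4 * ∑ σ, q σ = 3 * 2 ^ n := by
    have h1 : ∀ p : D, T.Good p → 4 * (∑ σ : V → Bool, if T.Mi σ p then (1 : ℝ) else 0) = 2 ^ n := by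
      intro p hp
      have := T.four_mul_mi hp
      have h2 : ((4 * (∑ σ : V → Bool, if T.Mi σ p then (1 : ℝ) else 0) : ℝ) : ℂ) =
          ((2 ^ n : ℝ) : ℂ) := by
        push_cast
        refine Eq.trans ?_ this
        congr 1
        apply Finset.sum_congr rfl
        intro σ _
        split_ifs <;> simp
      exact_mod_cast h2
    have a0 := h1 o ho
    have a1 := h1 _ ho.nxt
    have a2 := h1 _ ho.nxt.nxt
    simp only [hq]
    rw [Finset.sum_add_distrib, Finset.sum_add_distrib]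
    linarith
  have hYsum : 4 * ∑ σ, Y σ = 2 ^ n * (B : ℂ) := by
    have h1 : ∀ p : D, 4 / 2 ^ n * ∑ σ : V → Bool, T.cls σ p Θ = T.EE p Θ :=
      fun p => (T.EE_eq p Θ).symm
    have h2 : (4 : ℂ) / 2 ^ n * ∑ σ, Y σ = T.EE o Θ + τ ^ 2 * T.EE (T.nxt o) Θ +
        τ * T.EE (T.nxt (T.nxt o)) Θ := by
      rw [← h1, ← h1, ← h1]
      simp only [hY]
      rw [Finset.sum_add_distrib, Finset.sum_add_distrib, ← Finset.mul_sum, ← Finset.mul_sum]
      ring
    have h3 : T.EE o Θ + τ ^ 2 * T.EE (T.nxt o) Θ + τ * T.EE (T.nxt (T.nxt o)) Θ = (B : ℂ) := by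
      unfold EE
      rw [Finset.mul_sum, Finset.mul_sum, ← Finset.sum_add_distrib, ← Finset.sum_add_distrib, hB]
      push_cast
      apply Finset.sum_congr rfl
      intro d _
      have e1 : ((‖Θ d‖ : ℂ)) ^ 2 = Θ d * conj (Θ d) := by
        rw [Complex.mul_conj, Complex.normSq_eq_norm_sq]
        push_cast; rfl
      rw [e1]
      by_cases hd : T.InFace o d
      · simp [hΘ, hd]
      · have e2 : Θ d = T.UU τ o d := by simp [hΘ, hd]
        rw [e2]
        have e3 : conj (T.UU τ o d) = T.cc o d + τ ^ 2 * T.cc (T.nxt o) d +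
            τ ^ 4 * T.cc (T.nxt (T.nxt o)) d := by
          unfold UU
          rw [map_add, map_add, map_mul, map_mul, map_pow, hc, T.conj_cc, T.conj_cc, T.conj_cc]
          ring
        rw [e3]
        have h3 := tau_pow_three hτ
        linear_combination (-T.UU τ o d * τ * T.cc (T.nxt (T.nxt o)) d) * h3
    rw [h3] at h2
    have hne := two_pow_ne n
    field_simp at h2
    linear_combination h2
  have hcs : (∑ σ, ‖Y σ‖) ^ 2 ≤ (∑ σ, q σ) * ∑ σ, E σ := by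
    have h1 : ∑ σ, ‖Y σ‖ = ∑ σ, q σ * ‖Y σ‖ :=
      Finset.sum_congr rfl (fun σ _ => (hYle σ).2.1)
    rw [h1]
    refine (Finset.sum_mul_sq_le_sq_mul_sq _ _ _).trans ?_
    have h2 : ∑ σ, q σ ^ 2 = ∑ σ, q σ := Finset.sum_congr rfl (fun σ _ => (hYle σ).2.2)
    rw [h2]
    apply mul_le_mul_of_nonneg_left
    · exact Finset.sum_le_sum (fun σ _ => (hYle σ).1)
    · rw [← h2]
      exact Finset.sum_nonneg (fun σ _ => by positivity)
  have hnorm : 2 ^ n * B ≤ 4 * ∑ σ, ‖Y σ‖ := by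
    have h1 := congrArg norm hYsum
    rw [norm_mul, norm_mul, norm_pow, Complex.norm_real, Real.norm_of_nonneg hB0] at h1
    norm_num at h1
    rw [← h1]
    exact mul_le_mul_of_nonneg_left (norm_sum_le _ _) (by norm_num)
  have h2n : (0 : ℝ) < 2 ^ n := by positivity
  have h16 : (2 ^ n * B) ^ 2 ≤ 16 * ((∑ σ, q σ) * ∑ σ, E σ) := by
    calc (2 ^ n * B) ^ 2 ≤ (4 * ∑ σ, ‖Y σ‖) ^ 2 :=
          pow_le_pow_left₀ (by positivity) hnorm 2
      _ = 16 * (∑ σ, ‖Y σ‖) ^ 2 := by ring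
      _ ≤ _ := mul_le_mul_of_nonneg_left hcs (by norm_num)
  have h17 : 16 * ((∑ σ, q σ) * ∑ σ, E σ) = 3 * 2 ^ n * (2 ^ n * B) := by
    rw [← hqsum, ← hEsum]; ring
  rw [h17] at h16
  have h18 : 2 ^ n * 2 ^ n * (B * B) ≤ 2 ^ n * 2 ^ n * (3 * B) := by nlinarith
  have h19 : B * B ≤ 3 * B := le_of_mul_le_mul_left h18 (by positivity)
  rcases hB0.eq_or_lt with h20 | h20
  · rw [← h20]; norm_num
  · exact le_of_mul_le_mul_right h19 h20

/-- A linear law in the mean with one constant, for the three colours, gives the two alternatives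
for the weighted contour sums. -/
theorem lln_alg {τ κ a b : ℂ} (hτ : τ ^ 2 + τ + 1 = 0) {ε : ℝ}
    (h0 : ‖(τ - τ ^ 2) * a - κ * (a - b)‖ ≤ ε)
    (h1 : ‖(τ - τ ^ 2) * (τ * a) - κ * (τ * a - τ ^ 2 * b)‖ ≤ ε)
    (h2 : ‖(τ - τ ^ 2) * (τ ^ 2 * a) - κ * (τ ^ 2 * a - τ * b)‖ ≤ ε) :
    ‖κ * b‖ ≤ ε ∧ ‖(τ - τ ^ 2 - κ) * a‖ ≤ ε := by
  have h3 := tau_pow_three hτ
  have hn := norm_tau hτ
  set A := (τ - τ ^ 2) * a - κ * (a - b) with hA
  set B := (τ - τ ^ 2) * (τ * a) - κ * (τ * a - τ ^ 2 * b) with hB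
  set C := (τ - τ ^ 2) * (τ ^ 2 * a) - κ * (τ ^ 2 * a - τ * b) with hC
  have e1 : 3 * (κ * b) = A + τ * B + τ ^ 2 * C := by
    rw [hA, hB, hC]
    linear_combination (-(τ - τ ^ 2 - κ) * a) * hτ +
      (-(τ - τ ^ 2 - κ) * a * τ - κ * b * 2) * h3
  have e2 : 3 * ((τ - τ ^ 2 - κ) * a) = A + τ ^ 2 * B + τ * C := by
    rw [hA, hB, hC]
    linear_combination (-κ * b) * hτ +
      (-(τ - τ ^ 2 - κ) * a * 2 - κ * b * τ) * h3
  have n1 : ‖3 * (κ * b)‖ ≤ 3 * ε := by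
    rw [e1]
    refine (norm_add₃_le).trans ?_
    rw [norm_mul, norm_mul, norm_pow, hn]
    linarith
  have n2 : ‖3 * ((τ - τ ^ 2 - κ) * a)‖ ≤ 3 * ε := by
    rw [e2]
    refine (norm_add₃_le).trans ?_
    rw [norm_mul, norm_mul, norm_pow, hn]
    linarith
  rw [norm_mul] at n1 n2
  norm_num at n1 n2
  rw [norm_mul, norm_mul]
  exact ⟨n1, n2⟩

end Tri

end Vale.Agent.P148.R2.H258
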