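import Vale.Agent.P148.R2.H258.A3

namespace Vale.Agent.P148.R2.H258

open Function ComplexConjugate

namespace Tri

variable {V D : Type*} (T : Tri V D)

/-- `nxt` as a permutation. -/
def nxtEquiv : Equiv.Perm D where
  toFun := T.nxt
  invFun := fun d => T.nxt (T.nxt d)
  left_inv := T.nxt3
  right_inv := T.nxt3

theorem sum_nxt {M : Type*} [AddCommMonoid M] [Fintype D] (f : D → M) :
    ∑ d, f (T.nxt d) = ∑ d, f d :=
  Equiv.sum_comp T.nxtEquiv f

open Classical in
theorem cnt_eq_sum [Fintype V] (d e : D) :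
    (T.cnt d e : ℂ) = ∑ σ : V → Bool, if T.Rel σ d e then (1 : ℂ) else 0 := by
  rw [Finset.sum_ite, Finset.sum_const_zero, add_zero, Finset.sum_const, nsmul_eq_mul, mul_one]
  unfold cnt
  rw [Nat.card_eq_fintype_card, Fintype.card_subtype]

open Classical in
/-- The number of colourings with a given minority dart. -/
theorem four_mul_mi [Fintype V] {d : D} (h : T.Good d) :
    4 * (∑ σ : V → Bool, if T.Mi σ d then (1 : ℂ) else 0) = 2 ^ Fintype.card V := by
  classical
  set fl : V → (V → Bool) → (V → Bool) := fun v σ => Function.update σ v (!σ v) with hfl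
  have hinv : ∀ v, Function.Involutive (fl v) := by
    intro v σ
    simp only [hfl]
    rw [Function.update_self, Function.update_idem, Bool.not_not, Function.update_eq_self]
  have hsum : ∀ (v : V) (p : (V → Bool) → ℂ), ∑ σ, p (fl v σ) = ∑ σ, p σ := fun v p =>
    Equiv.sum_comp (hinv v).toPerm p
  obtain ⟨h1, h2, h3⟩ := h
  set s := T.src d
  set t := T.tgt d
  set a := T.apex d
  set p : Bool → Bool → (V → Bool) → ℂ := fun x y σ =>
    if (σ s ^^ σ t) = x ∧ (σ a ^^ σ s) = y then (1 : ℂ) else 0 with hp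
  have hat : ∀ (σ : V → Bool) (v w : V), v ≠ w → fl v σ w = σ w := by
    intro σ v w hvw
    simp only [hfl]
    rw [Function.update_of_ne hvw.symm]
  have hat' : ∀ (σ : V → Bool) (v : V), fl v σ v = !σ v := by
    intro σ v
    simp only [hfl]
    rw [Function.update_self]
  have e1 : ∀ x y, ∑ σ, p (!x) y σ = ∑ σ, p x y σ := by
    intro x y
    rw [← hsum t (p x y)]
    apply Finset.sum_congr rfl
    intro σ _
    simp only [hp]
    rw [hat' σ t, hat σ t s h1.symm, hat σ t a h2]
    congr 1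
    cases σ s <;> cases σ t <;> cases σ a <;> cases x <;> cases y <;> simp
  have e2 : ∀ x y, ∑ σ, p x (!y) σ = ∑ σ, p x y σ := by
    intro x y
    rw [← hsum a (p x y)]
    apply Finset.sum_congr rfl
    intro σ _
    simp only [hp]
    rw [hat' σ a, hat σ a s h3, hat σ a t h2.symm]
    congr 1
    cases σ s <;> cases σ t <;> cases σ a <;> cases x <;> cases y <;> simp
  have e3 : ∑ σ : V → Bool, (p true false σ + p true true σ + p false false σ + p false true σ)
      = 2 ^ Fintype.card V := by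
    have : ∀ σ : V → Bool, p true false σ + p true true σ + p false false σ + p false true σ = 1 := by
      intro σ
      simp only [hp]
      cases σ s <;> cases σ t <;> cases σ a <;> simp
    simp only [this]
    simp
  rw [← e3]
  rw [Finset.sum_add_distrib, Finset.sum_add_distrib, Finset.sum_add_distrib]
  have f1 := e2 true false
  have f2 := e1 true false
  have f3 := e1 true true
  simp only [Bool.not_false, Bool.not_true] at f1 f2 f3
  rw [f2, f3, f1]
  have f4 : ∀ σ : V → Bool, (if T.Mi σ d then (1 : ℂ) else 0) = p true false σ := by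
    intro σ
    have hb : T.Mi σ d ↔ (σ s ^^ σ t) = true ∧ (σ a ^^ σ s) = false := by
      change (σ s ≠ σ t ∧ σ a = σ s) ↔ _
      generalize σ s = x
      generalize σ t = y
      generalize σ a = z
      revert x y z
      decide
    simp only [hp, hb]
  rw [Finset.sum_congr rfl (fun σ _ => f4 σ)]
  ring

theorem tau_pow_three {τ : ℂ} (hτ : τ ^ 2 + τ + 1 = 0) : τ ^ 3 = 1 := by
  linear_combination (τ - 1) * hτ

theorem tau_ne_one {τ : ℂ} (hτ : τ ^ 2 + τ + 1 = 0) : τ ≠ 1 := by
  rintro rfl
  norm_num at hτ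

theorem conj_tau {τ : ℂ} (hτ : τ ^ 2 + τ + 1 = 0) : conj τ = τ ^ 2 := by
  have h3 := tau_pow_three hτ
  have hn : ‖τ‖ = 1 := by
    have : ‖τ‖ ^ 3 = 1 := by rw [← norm_pow, h3, norm_one]
    exact (pow_eq_one_iff_of_nonneg (norm_nonneg _) (by norm_num)).1 this
  have h0 : τ ≠ 0 := by
    rintro rfl
    norm_num at hτ
  have : τ * conj τ = 1 := by
    rw [Complex.mul_conj, Complex.normSq_eq_norm_sq, hn]; norm_num
  have h4 : τ * conj τ = τ * τ ^ 2 := by rw [this, ← h3]; ring
  exact mul_left_cancel₀ h0 h4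

/-- First moments of a class seen from a face: rotation. -/
theorem sum_rot [Fintype D] [Finite V] (hP : T.Planar) {τ : ℂ} {Θ : D → ℂ}
    (h : ∀ d, Θ (T.nxt d) = τ ^ 2 * Θ d) {o : D} (ho : Θ o = 0) :
    ∑ d, (T.cnt d (T.nxt (T.nxt o)) : ℂ) * Θ d = τ ^ 2 * ∑ d, (T.cnt d o : ℂ) * Θ d := by
  rw [← T.sum_nxt, Finset.mul_sum]
  apply Finset.sum_congr rfl
  intro d _
  rw [h]
  by_cases h0 : o = d
  · subst h0; rw [ho]; ring
  by_cases h1 : o = T.nxt (T.nxt d)
  · have : Θ d = 0 := by
      have h2 := h (T.nxt (T.nxt d))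
      rw [← h1, ho, h1, T.nxt3] at h2
      rw [h2]; ring
    rw [this]; ring
  rw [← T.cnt_rot hP h0 h1]
  ring

open Classical in
/-- The white noise energy identity. -/
theorem energy_cnt [Fintype D] [Fintype V] (hP : T.Planar) {τ : ℂ} (hτ : τ ^ 2 + τ + 1 = 0)
    {Θ Θ' : D → ℂ} (h : ∀ d, Θ (T.nxt d) = τ ^ 2 * Θ d) (h' : ∀ d, Θ' (T.nxt d) = τ ^ 2 * Θ' d) :
    ∑ d, ∑ e, (T.cnt d e : ℂ) * (Θ d * conj (Θ' e)) =
      ∑ d, (T.cnt d d : ℂ) * (Θ d * conj (Θ' d)) := by
  have h3 := tau_pow_three hτ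
  have hc := conj_tau hτ
  set S : D → D → Prop := fun d e => e = d ∨ e = T.nxt d ∨ e = T.nxt (T.nxt d) with hS
  have hSn : ∀ d e, S (T.nxt d) (T.nxt (T.nxt e)) ↔ S d e := by
    intro d e
    have inj : ∀ x y : D, T.nxt x = T.nxt y ↔ x = y := fun x y => T.nxtEquiv.injective.eq_iff
    have t1 : T.nxt (T.nxt e) = T.nxt d ↔ e = T.nxt (T.nxt d) := by
      rw [inj]
      constructor
      · intro hh; rw [← hh, T.nxt3]
      · intro hh; rw [hh, T.nxt3]
    have t2 : T.nxt (T.nxt e) = T.nxt (T.nxt d) ↔ e = d := by rw [inj, inj]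
    have t3 : T.nxt (T.nxt e) = T.nxt (T.nxt (T.nxt d)) ↔ e = T.nxt d := by rw [inj, inj]
    simp only [hS]
    rw [t1, t2, t3]
    tauto
  set c' : D → D → ℂ := fun d e => if S d e then 0 else (T.cnt d e : ℂ) with hc'
  have hrot : ∀ d e, c' (T.nxt d) (T.nxt (T.nxt e)) = c' d e := by
    intro d e
    simp only [hc']
    by_cases hs : S d e
    · rw [if_pos hs, if_pos ((hSn d e).2 hs)]
    · rw [if_neg hs, if_neg (fun hh => hs ((hSn d e).1 hh))]
      simp only [hS] at hs
      push Not at hs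
      rw [← T.cnt_rot hP hs.1 hs.2.2]
  set F := ∑ d, ∑ e, c' d e * (Θ d * conj (Θ' e)) with hF
  have hF0 : F = τ * F := by
    conv_lhs => rw [hF, ← T.sum_nxt]
    have : ∀ d, ∑ e, c' (T.nxt d) e * (Θ (T.nxt d) * conj (Θ' e)) =
        τ * ∑ e, c' d e * (Θ d * conj (Θ' e)) := by
      intro d
      rw [← T.sum_nxt, ← T.sum_nxt, Finset.mul_sum]
      apply Finset.sum_congr rfl
      intro e _
      rw [hrot, h, h', h', map_mul, map_mul, map_pow, hc]
      linear_combination (τ ^ 7 + τ ^ 4 + τ) * (c' d e * (Θ d * conj (Θ' e))) * h3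
    rw [Finset.sum_congr rfl (fun d _ => this d), ← Finset.mul_sum]
  have hF1 : F = 0 := by
    have : (1 - τ) * F = 0 := by linear_combination hF0
    rcases mul_eq_zero.1 this with h1 | h1
    · exact absurd (sub_eq_zero.1 h1).symm (tau_ne_one hτ)
    · exact h1
  have hdiag : ∀ d e, S d e → e ≠ d → T.cnt d e = 0 := by
    intro d e hs hne
    unfold cnt
    rw [Nat.card_eq_zero]
    left
    constructor
    rintro ⟨σ, hd, he, -⟩
    rcases hs with rfl | rfl | rfl
    · exact hne rfl
    · exact T.mi_face1 hd he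
    · exact T.mi_face2 hd he
  have hsplit : ∀ d e, (T.cnt d e : ℂ) * (Θ d * conj (Θ' e)) = c' d e * (Θ d * conj (Θ' e)) +
      (if e = d then (T.cnt d d : ℂ) * (Θ d * conj (Θ' d)) else 0) := by
    intro d e
    by_cases hs : S d e
    · by_cases hne : e = d
      · subst hne
        simp [hc', hs]
      · rw [hdiag d e hs hne]
        simp [hc', hs, hne]
    · have hne : e ≠ d := fun hh => hs (Or.inl hh)
      simp [hc', hs, hne]
  calc ∑ d, ∑ e, (T.cnt d e : ℂ) * (Θ d * conj (Θ' e))
      = ∑ d, ∑ e, (c' d e * (Θ d * conj (Θ' e)) +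
      (if e = d then (T.cnt d d : ℂ) * (Θ d * conj (Θ' d)) else 0)) := by
        apply Finset.sum_congr rfl; intro d _
        apply Finset.sum_congr rfl; intro e _
        exact hsplit d e
    _ = F + ∑ d, (T.cnt d d : ℂ) * (Θ d * conj (Θ' d)) := by
        simp only [Finset.sum_add_distrib, Finset.sum_ite_eq', Finset.mem_univ, if_true]
        rw [hF]
    _ = _ := by rw [hF1, zero_add]

open Classical in
theorem cnt_self [Fintype V] [Finite D] (d : D) :
    (T.cnt d d : ℂ) = ∑ σ : V → Bool, if T.Mi σ d then (1 : ℂ) else 0 := by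
  rw [T.cnt_eq_sum]
  apply Finset.sum_congr rfl
  intro σ _
  have : T.Rel σ d d ↔ T.Mi σ d := ⟨fun h => h.1, fun h => T.rel_refl h⟩
  simp only [this]

open Classical in
/-- The white noise energy identity, as a sum over colourings. -/
theorem energy [Fintype D] [Fintype V] (hP : T.Planar) {τ : ℂ} (hτ : τ ^ 2 + τ + 1 = 0)
    {Θ Θ' : D → ℂ} (h : ∀ d, Θ (T.nxt d) = τ ^ 2 * Θ d) (h' : ∀ d, Θ' (T.nxt d) = τ ^ 2 * Θ' d)
    (hg : ∀ d, ¬ T.Good d → Θ d = 0) :
    4 * ∑ σ : V → Bool, ∑ d, ∑ e, (if T.Rel σ d e then Θ d * conj (Θ' e) else 0) =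
      2 ^ Fintype.card V * ∑ d, Θ d * conj (Θ' d) := by
  have e1 : ∑ σ : V → Bool, ∑ d, ∑ e, (if T.Rel σ d e then Θ d * conj (Θ' e) else 0) =
      ∑ d, ∑ e, (T.cnt d e : ℂ) * (Θ d * conj (Θ' e)) := by
    rw [Finset.sum_comm]
    apply Finset.sum_congr rfl; intro d _
    rw [Finset.sum_comm]
    apply Finset.sum_congr rfl; intro e _
    rw [T.cnt_eq_sum, Finset.sum_mul]
    apply Finset.sum_congr rfl; intro σ _
    split_ifs <;> simp
  rw [e1, T.energy_cnt hP hτ h h', Finset.mul_sum, Finset.mul_sum]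
  apply Finset.sum_congr rfl; intro d _
  by_cases hd : T.Good d
  · rw [← mul_assoc, T.cnt_self, T.four_mul_mi hd]
  · rw [hg d hd]; ring

open Classical in
/-- The value of a class on a weight. -/
noncomputable def cls [Fintype D] (σ : V → Bool) (d : D) (Θ : D → ℂ) : ℂ :=
  ∑ e, if T.Rel σ e d then Θ e else 0

open Classical in
/-- Bessel: the square of one class value is at most the total energy. -/
theorem cls_le [Fintype D] (σ : V → Bool) (o : D) (Θ : D → ℂ) :
    ‖T.cls σ o Θ‖ ^ 2 ≤ (∑ d, ∑ e, (if T.Rel σ d e then Θ d * conj (Θ e) else 0)).re := by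
  set W : D → ℂ := fun d => T.cls σ d Θ with hW
  set n : D → ℝ := fun d => ∑ e, if T.Rel σ e d then (1 : ℝ) else 0 with hn
  have hn0 : ∀ d, 0 ≤ n d := fun d => Finset.sum_nonneg (fun e _ => by split_ifs <;> norm_num)
  have hWc : ∀ d e, T.Rel σ d e → W d = W e := by
    intro d e hde
    simp only [hW, cls]
    apply Finset.sum_congr rfl
    intro f _
    have : T.Rel σ f d ↔ T.Rel σ f e :=
      ⟨fun h => T.rel_trans h hde, fun h => T.rel_trans h (T.rel_symm hde)⟩
    simp only [this]
  have hnc : ∀ d e, T.Rel σ d e → n d = n e := by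
    intro d e hde
    simp only [hn]
    apply Finset.sum_congr rfl
    intro f _
    have : T.Rel σ f d ↔ T.Rel σ f e :=
      ⟨fun h => T.rel_trans h hde, fun h => T.rel_trans h (T.rel_symm hde)⟩
    simp only [this]
  have hnpos : ∀ d e, T.Rel σ d e → 0 < n d := by
    intro d e hde
    have h1 : T.Rel σ d d := T.rel_refl hde.1
    have : (1 : ℝ) ≤ n d := by
      simp only [hn]
      calc (1 : ℝ) = (if T.Rel σ d d then (1 : ℝ) else 0) := by rw [if_pos h1]
        _ ≤ _ := Finset.single_le_sum (f := fun e => if T.Rel σ e d then (1 : ℝ) else 0)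
            (fun e _ => by split_ifs <;> norm_num) (Finset.mem_univ d)
    linarith
  have key : ∑ d, ∑ e, (if T.Rel σ d e then Θ d * conj (Θ e) else 0) =
      ((∑ d, ‖W d‖ ^ 2 / n d : ℝ) : ℂ) := by
    have a1 : ∀ d, ((‖W d‖ ^ 2 / n d : ℝ) : ℂ) =
        ∑ e, (if T.Rel σ e d then Θ e * conj (W e) / (n e : ℂ) else 0) := by
      intro d
      have : ((‖W d‖ ^ 2 : ℝ) : ℂ) = W d * conj (W d) := by
        rw [Complex.mul_conj, Complex.normSq_eq_norm_sq]
      rw [Complex.ofReal_div, this]
      have e1 : W d = ∑ e, if T.Rel σ e d then Θ e else 0 := rfl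
      conv_lhs => rw [show W d * conj (W d) / (n d : ℂ) = W d * (conj (W d) / (n d : ℂ)) by ring]
      conv_lhs => arg 1; rw [e1]
      rw [Finset.sum_mul]
      apply Finset.sum_congr rfl
      intro e _
      split_ifs with hh
      · rw [hWc e d hh, hnc e d hh]; ring
      · ring
    rw [Complex.ofReal_sum, Finset.sum_congr rfl (fun d _ => a1 d)]
    conv_rhs => rw [Finset.sum_comm]
    apply Finset.sum_congr rfl
    intro d _
    by_cases hd : T.Rel σ d d
    · have hnz : (n d : ℂ) ≠ 0 := by exact_mod_cast (hnpos d d hd).ne'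
      have b1 : ∑ e, (if T.Rel σ d e then Θ d * conj (W d) / (n d : ℂ) else 0) =
          (∑ e, if T.Rel σ e d then (1 : ℂ) else 0) * (Θ d * conj (W d) / (n d : ℂ)) := by
        rw [Finset.sum_mul]
        apply Finset.sum_congr rfl
        intro e _
        by_cases hh : T.Rel σ d e
        · simp [hh, T.rel_symm hh]
        · have : ¬ T.Rel σ e d := fun h => hh (T.rel_symm h)
          simp [hh, this]
      have b2 : (∑ e, if T.Rel σ e d then (1 : ℂ) else 0) = (n d : ℂ) := by
        simp only [hn]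
        push_cast
        apply Finset.sum_congr rfl
        intro e _
        split_ifs <;> simp
      rw [b1, b2, mul_div_assoc', mul_comm (n d : ℂ), mul_div_assoc, div_self hnz, mul_one]
      have : conj (W d) = ∑ e, if T.Rel σ d e then conj (Θ e) else 0 := by
        simp only [hW, cls]
        rw [map_sum]
        apply Finset.sum_congr rfl
        intro e _
        by_cases hh : T.Rel σ d e
        · simp [hh, T.rel_symm hh]
        · have : ¬ T.Rel σ e d := fun h => hh (T.rel_symm h)
          simp [hh, this]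
      rw [this, Finset.mul_sum]
      apply Finset.sum_congr rfl
      intro e _
      split_ifs <;> simp
    · have : ∀ e, ¬ T.Rel σ d e := fun e h => hd (T.rel_refl h.1)
      simp [this]
  rw [key, Complex.ofReal_re]
  change ‖W o‖ ^ 2 ≤ _
  by_cases ho : T.Rel σ o o
  · have c1 : ‖W o‖ ^ 2 = ∑ d, (if T.Rel σ d o then ‖W d‖ ^ 2 / n d else 0) := by
      have : ∀ d, (if T.Rel σ d o then ‖W d‖ ^ 2 / n d else 0) =
          (if T.Rel σ d o then (1 : ℝ) else 0) * (‖W o‖ ^ 2 / n o) := by
        intro d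
        split_ifs with hh
        · rw [hWc d o hh, hnc d o hh, one_mul]
        · ring
      rw [Finset.sum_congr rfl (fun d _ => this d), ← Finset.sum_mul]
      change _ = n o * _
      rw [mul_div_assoc', mul_comm (n o), mul_div_assoc, div_self (hnpos o o ho).ne', mul_one]
    rw [c1]
    apply Finset.sum_le_sum
    intro d _
    split_ifs with hh
    · exact le_rfl
    · exact div_nonneg (by positivity) (hn0 d)
  · have : W o = 0 := by
      simp only [hW, cls]
      apply Finset.sum_eq_zero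
      intro e _
      rw [if_neg]
      intro h
      exact ho (T.rel_refl h.2.1)
    rw [this, norm_zero]
    have : (0 : ℝ) ^ 2 = 0 := by norm_num
    rw [this]
    exact Finset.sum_nonneg (fun d _ => div_nonneg (by positivity) (hn0 d))

end Tri

end Vale.Agent.P148.R2.H258
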