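import Vale.Agent.P148.R2.H258.A5

namespace Vale.Agent.P148.R2.H258

open Function

namespace Tri

variable {V D : Type*} (T : Tri V D)

/-- The majority cycle of the class of `d`. -/
def InG (σ : V → Bool) (d e : D) : Prop := ∃ g, T.Rel σ d g ∧ e = T.rev (T.nxt (T.nxt g))

theorem inG_of_rel {σ : V → Bool} {d g : D} (h : T.Rel σ d g) :
    T.InG σ d (T.rev (T.nxt (T.nxt g))) := ⟨g, h, rfl⟩

theorem inG_self [Finite D] {σ : V → Bool} {d : D} (h : T.Mi σ d) :
    T.InG σ d (T.rev (T.nxt (T.nxt d))) := ⟨d, T.rel_refl h, rfl⟩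

theorem rel_col {σ : V → Bool} {d g : D} (h : T.Rel σ d g) :
    σ (T.src g) = σ (T.src d) ∧ σ (T.tgt g) = σ (T.tgt d) := by
  obtain ⟨-, -, n, -, rfl, -⟩ := h
  exact ⟨T.col_src_iter σ d n, T.col_tgt_iter σ d n⟩

theorem inG_col {σ : V → Bool} {d e : D} (h : T.InG σ d e) :
    σ (T.src e) = σ (T.src d) ∧ σ (T.tgt e) = σ (T.src d) := by
  obtain ⟨g, hg, rfl⟩ := h
  have h1 := T.rel_col hg
  rw [T.src_rev, T.tgt_nxt2, T.tgt_rev, src_nxt2, hg.2.1.2]
  exact ⟨h1.1, h1.1⟩

/-- The cycle of the class of `d` as a simple closed walk, starting with the dart of `d`. -/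
theorem class_walk [Finite D] (hP : T.Planar) {σ : V → Bool} {d : D} (h : T.Mi σ d)
    (hg : T.apex d ≠ T.src d) : ∃ l : List D,
      T.Walk (T.src d) (T.src d) (T.rev (T.nxt (T.nxt d)) :: l) ∧
      T.Walk (T.apex d) (T.src d) l ∧
      ((T.rev (T.nxt (T.nxt d)) :: l).map T.src).Nodup ∧
      (∀ e, e ∈ T.rev (T.nxt (T.nxt d)) :: l ↔ T.InG σ d e) := by
  obtain ⟨m, f, hm, h0, hfm, hs, hinj, hrel, hnd⟩ := T.class_cycle hP h hg
  set γ : ℕ → D := fun i => T.rev (T.nxt (T.nxt (f i))) with hγ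
  have hsrc : ∀ i, T.src (γ i) = T.src (f i) := by
    intro i; simp only [hγ]; rw [T.src_rev, T.tgt_nxt2]
  have htgt : ∀ i, T.tgt (γ i) = T.apex (f i) := by
    intro i; simp only [hγ]; rw [T.tgt_rev, src_nxt2]
  have hwalk : ∀ k a, a + k ≤ m → T.Walk (T.src (f a)) (T.src (f (a + k)))
      ((List.range k).map (fun i => γ (a + i))) := by
    intro k a
    induction k with
    | zero => intro _; exact Walk.nil _
    | succ k ih =>
      intro hk
      rw [List.range_succ, List.map_append]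
      refine (ih (by omega)).append ?_
      have h2 := Walk.single (T := T) (γ (a + k))
      rw [hsrc, htgt, ← hs (a + k) (by omega)] at h2
      exact h2
  obtain ⟨p, rfl⟩ : ∃ p, m = p + 1 := ⟨m - 1, by omega⟩
  have hlist : (List.range (p + 1)).map γ = γ 0 :: (List.range p).map (fun i => γ (1 + i)) := by
    rw [List.range_succ_eq_map, List.map_cons, List.map_map]
    congr 1
    apply List.map_congr_left
    intro i _
    simp only [comp_apply, Nat.succ_eq_add_one, add_comm]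
  have hγ0 : γ 0 = T.rev (T.nxt (T.nxt d)) := by simp only [hγ, h0]
  refine ⟨(List.range p).map (fun i => γ (1 + i)), ?_, ?_, ?_, ?_⟩
  · rw [← hγ0, ← hlist]
    have := hwalk (p + 1) 0 (by omega)
    simp only [zero_add] at this
    rwa [h0, hfm] at this
  · have := hwalk p 1 (by omega)
    rw [add_comm 1 p, hfm] at this
    have h1 := hs 0 (by omega)
    rw [zero_add, h0] at h1
    rwa [h1] at this
  · rw [← hγ0, ← hlist, List.map_map]
    rw [List.nodup_map_iff_inj_on List.nodup_range]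
    intro i hi k hk hik
    rw [List.mem_range] at hi hk
    simp only [comp_apply, hsrc] at hik
    exact hinj i hi k hk hik
  · intro e
    rw [← hγ0, ← hlist, List.mem_map]
    constructor
    · rintro ⟨i, hi, rfl⟩
      rw [List.mem_range] at hi
      exact ⟨f i, (hrel _).2 ⟨i, hi, rfl⟩, rfl⟩
    · rintro ⟨g, hg', rfl⟩
      obtain ⟨i, hi, rfl⟩ := (hrel g).1 hg'
      exact ⟨i, List.mem_range.2 hi, rfl⟩

/-- `N` is a face potential of the list of darts `l`. -/
def Pot (l : List D) (N : D → ZMod 2) : Prop :=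
  (∀ d, N (T.nxt d) = N d) ∧
    ∀ d, (T.src d ≠ T.tgt d ∨ ∀ e ∈ l, T.src e ≠ T.src d) → N d + N (T.rev d) = T.mu l d

theorem exists_pot (hP : T.Planar) {u : V} {l : List D} (hw : T.Walk u u l) (d : D) :
    ∃ N, T.Pot l N ∧ N d = 0 := by
  obtain ⟨N, h1, h2⟩ := hP u l hw
  refine ⟨fun e => N e + N d, ⟨fun e => ?_, fun e he => ?_⟩, ?_⟩
  · change N (T.nxt e) + N d = N e + N d
    rw [h1]
  · have := h2 e he
    rw [← this]
    change (N e + N d) + (N (T.rev e) + N d) = N e + N (T.rev e)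
    generalize N e = a
    generalize N (T.rev e) = b
    generalize N d = c
    revert a b c; decide
  · change N d + N d = 0
    generalize N d = c
    revert c; decide

theorem mu_mono {σ : V → Bool} {l : List D} (hl : ∀ e ∈ l, σ (T.src e) = σ (T.tgt e)) {d : D}
    (hd : T.Bi σ d) : T.mu l d = 0 := by
  apply T.mu_zero
  · intro h; exact hd (hl d h)
  · intro h
    have := hl _ h
    rw [T.src_rev, T.tgt_rev] at this
    exact hd this.symm

/-- A potential of a monochromatic closed walk is constant along strands. -/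
theorem pot_iter {σ : V → Bool} {l : List D} (hl : ∀ e ∈ l, σ (T.src e) = σ (T.tgt e))
    {N : D → ZMod 2} (hN : T.Pot l N) {d : D} (hd : T.Bi σ d) (n : ℕ) :
    N ((T.st σ)^[n] d) = N d := by
  induction n with
  | zero => rfl
  | succ n ih =>
    have hb : T.Bi σ ((T.st σ)^[n] d) := (T.bi_iter n).2 hd
    have hb1 : T.Bi σ ((T.st σ)^[n + 1] d) := (T.bi_iter (n + 1)).2 hd
    have h3 := hN.2 ((T.st σ)^[n + 1] d) (Or.inl (fun hh => hb1 (by rw [hh])))
    have h4 : N (T.rev ((T.st σ)^[n + 1] d)) = N ((T.st σ)^[n] d) := by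
      rw [iterate_succ', comp_apply]; exact T.face_st hN.1 hb
    rw [T.mu_mono hl hb1, h4, ih] at h3
    exact (zmod2_add_eq_zero h3).symm

open Classical in
/-- The face potential of the class of `d`. -/
noncomputable def pot (σ : V → Bool) (d : D) : D → ZMod 2 :=
  if h : ∃ N : D → ZMod 2, N d = 0 ∧ ∃ l : List D, T.Pot l N ∧
      T.Walk (T.src d) (T.src d) (T.rev (T.nxt (T.nxt d)) :: l.tail) ∧
      T.Walk (T.apex d) (T.src d) l.tail ∧ l = T.rev (T.nxt (T.nxt d)) :: l.tail ∧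
      (l.map T.src).Nodup ∧ (∀ e, e ∈ l ↔ T.InG σ d e)
  then h.choose else 0

theorem pot_spec [Finite D] (hP : T.Planar) {σ : V → Bool} {d : D} (h : T.Mi σ d)
    (hg : T.apex d ≠ T.src d) : T.pot σ d d = 0 ∧ ∃ l : List D,
      T.Pot (T.rev (T.nxt (T.nxt d)) :: l) (T.pot σ d) ∧
      T.Walk (T.src d) (T.src d) (T.rev (T.nxt (T.nxt d)) :: l) ∧
      T.Walk (T.apex d) (T.src d) l ∧
      ((T.rev (T.nxt (T.nxt d)) :: l).map T.src).Nodup ∧
      (∀ e, e ∈ T.rev (T.nxt (T.nxt d)) :: l ↔ T.InG σ d e) := by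
  have hex : ∃ N : D → ZMod 2, N d = 0 ∧ ∃ l : List D, T.Pot l N ∧
      T.Walk (T.src d) (T.src d) (T.rev (T.nxt (T.nxt d)) :: l.tail) ∧
      T.Walk (T.apex d) (T.src d) l.tail ∧ l = T.rev (T.nxt (T.nxt d)) :: l.tail ∧
      (l.map T.src).Nodup ∧ (∀ e, e ∈ l ↔ T.InG σ d e) := by
    obtain ⟨l, h1, h2, h3, h4⟩ := T.class_walk hP h hg
    obtain ⟨N, h5, h6⟩ := T.exists_pot hP h1 d
    exact ⟨N, h6, _, h5, h1, h2, rfl, h3, h4⟩
  have hp : T.pot σ d = hex.choose := by
    unfold pot; rw [dif_pos hex]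
  obtain ⟨h6, l, h5, h1, h2, hl, h3, h4⟩ := hex.choose_spec
  rw [hp]
  refine ⟨h6, l.tail, ?_, h1, h2, ?_, ?_⟩
  · rw [← hl]; exact h5
  · rw [← hl]; exact h3
  · rw [← hl]; exact h4

open Classical in
/-- The indicator of the edges on or beyond the cycle of the class of `d`. -/
noncomputable def NK (σ : V → Bool) (d e : D) : ℂ :=
  if T.InG σ d e ∨ T.InG σ d (T.rev e) ∨ (T.pot σ d e = 1 ∧ T.pot σ d (T.rev e) = 1) then 1 else 0

theorem NK_rev (σ : V → Bool) (d e : D) : T.NK σ d (T.rev e) = T.NK σ d e := by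
  unfold NK
  rw [T.rev_rev]
  congr 1
  apply propext
  tauto

section

variable [Finite D] (hP : T.Planar) {σ : V → Bool} {d : D} (h : T.Mi σ d)
  (hg : T.apex d ≠ T.src d)
include hP h hg

theorem pot_nxt (e : D) : T.pot σ d (T.nxt e) = T.pot σ d e := by
  obtain ⟨-, l, h1, -⟩ := T.pot_spec hP h hg
  exact h1.1 e

theorem pot_member {g : D} (hr : T.Rel σ d g) : T.pot σ d g = 0 := by
  obtain ⟨h0, l, h1, h2, h3, h4, h5⟩ := T.pot_spec hP h hg
  obtain ⟨-, -, n, -, rfl, -⟩ := hr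
  rw [T.pot_iter (σ := σ) ?_ h1 h.bi n, h0]
  intro e he
  have := T.inG_col ((h5 e).1 he)
  rw [this.1, this.2]

/-- Across an edge, the potential changes iff exactly one of the two darts is on the cycle. -/
theorem pot_rev {e : D} (he : T.src e ≠ T.tgt e) :
    T.pot σ d (T.rev e) = T.pot σ d e + T.mu (Classical.choose (T.pot_spec hP h hg).2 |>
      fun l => T.rev (T.nxt (T.nxt d)) :: l) e := by
  have h1 := (Classical.choose_spec (T.pot_spec hP h hg).2).1
  have := h1.2 e (Or.inl he)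
  rw [← this]
  generalize T.pot σ d e = a
  generalize T.pot σ d (T.rev e) = b
  revert a b; decide

theorem pot_rev_not {e : D} (he : T.src e ≠ T.tgt e) (h1 : ¬ T.InG σ d e)
    (h2 : ¬ T.InG σ d (T.rev e)) : T.pot σ d (T.rev e) = T.pot σ d e := by
  rw [T.pot_rev hP h hg he, T.mu_zero, add_zero]
  · intro hm
    exact h1 (((Classical.choose_spec (T.pot_spec hP h hg).2).2.2.2.2 e).1 hm)
  · intro hm
    exact h2 (((Classical.choose_spec (T.pot_spec hP h hg).2).2.2.2.2 _).1 hm)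

theorem pot_rev_one {e : D} (he : T.src e ≠ T.tgt e) (h1 : T.InG σ d e)
    (h2 : ¬ T.InG σ d (T.rev e)) : T.pot σ d (T.rev e) = T.pot σ d e + 1 := by
  classical
  rw [T.pot_rev hP h hg he]
  congr 1
  obtain ⟨-, -, -, h4, h5⟩ := Classical.choose_spec (T.pot_spec hP h hg).2
  set l := Classical.choose (T.pot_spec hP h hg).2
  have a1 : e ∈ T.rev (T.nxt (T.nxt d)) :: l := (h5 e).2 h1
  have a2 : T.rev e ∉ T.rev (T.nxt (T.nxt d)) :: l := fun hm => h2 ((h5 _).1 hm)
  unfold mu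
  rw [List.count_eq_zero_of_not_mem a2, List.count_eq_one_of_mem (List.Nodup.of_map _ h4) a1]
  norm_num

theorem NK_member {g : D} (hr : T.Rel σ d g) :
    T.NK σ d g = 0 ∧ T.NK σ d (T.nxt g) = 0 ∧ T.NK σ d (T.nxt (T.nxt g)) = 1 := by
  have hp := T.pot_member hP h hg hr
  have hnb : ∀ e, T.Bi σ e → ¬ T.InG σ d e ∧ ¬ T.InG σ d (T.rev e) := by
    intro e hb
    constructor
    · intro hh
      have := T.inG_col hh
      exact hb (by rw [this.1, this.2])
    · intro hh
      have := T.inG_col hh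
      rw [T.src_rev, T.tgt_rev] at this
      exact hb (by rw [this.1, this.2])
  have hb1 : T.Bi σ g := hr.2.1.bi
  have hb2 : T.Bi σ (T.nxt g) := by
    unfold Bi
    rw [src_nxt', tgt_nxt, hr.2.1.2]
    exact hr.2.1.1.symm
  refine ⟨?_, ?_, ?_⟩
  · unfold NK
    rw [if_neg]
    rintro (hh | hh | ⟨hh, -⟩)
    · exact (hnb g hb1).1 hh
    · exact (hnb g hb1).2 hh
    · rw [hp] at hh; exact absurd hh (by decide)
  · unfold NK
    rw [if_neg]
    rintro (hh | hh | ⟨hh, -⟩)
    · exact (hnb _ hb2).1 hh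
    · exact (hnb _ hb2).2 hh
    · rw [T.pot_nxt hP h hg, hp] at hh; exact absurd hh (by decide)
  · unfold NK
    rw [if_pos]
    right; left
    exact T.inG_of_rel hr

/-- In a face without member of the class, `NK` is constant (on darts that are not loops). -/
theorem NK_face {g : D} (h0 : ¬ T.Rel σ d g) (h1 : ¬ T.Rel σ d (T.nxt g))
    (h2 : ¬ T.Rel σ d (T.nxt (T.nxt g))) (e : D) (he : e = g ∨ e = T.nxt g ∨ e = T.nxt (T.nxt g))
    (hne : T.src e ≠ T.tgt e) : T.NK σ d e = if T.pot σ d g = 1 then 1 else 0 := by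
  have hpe : T.pot σ d e = T.pot σ d g := by
    rcases he with rfl | rfl | rfl
    · rfl
    · rw [T.pot_nxt hP h hg]
    · rw [T.pot_nxt hP h hg, T.pot_nxt hP h hg]
  have hr : ¬ T.InG σ d (T.rev e) := by
    rintro ⟨f, hf, hfe⟩
    have h3 : e = T.nxt (T.nxt f) := by
      have := congrArg T.rev hfe
      rwa [T.rev_rev, T.rev_rev] at this
    have h4 : f = T.nxt e := by rw [h3, T.nxt3]
    rw [h4] at hf
    rcases he with rfl | rfl | rfl
    · exact h1 hf
    · exact h2 hf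
    · rw [T.nxt3] at hf; exact h0 hf
  by_cases hin : T.InG σ d e
  · have h5 := T.pot_rev_one hP h hg hne hin hr
    obtain ⟨f, hf, hfe⟩ := hin
    have h6 : T.pot σ d (T.rev e) = 0 := by
      rw [hfe, T.rev_rev, T.pot_nxt hP h hg, T.pot_nxt hP h hg]
      exact T.pot_member hP h hg hf
    have h7 : T.pot σ d g = 1 := by
      rw [hpe, h6] at h5
      revert h5
      generalize T.pot σ d g = a
      revert a; decide
    rw [if_pos h7]
    unfold NK
    rw [if_pos]
    left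
    exact ⟨f, hf, hfe⟩
  · have h5 := T.pot_rev_not hP h hg hne hin hr
    unfold NK
    rw [h5, hpe]
    by_cases h8 : T.pot σ d g = 1
    · rw [if_pos h8, if_pos (Or.inr (Or.inr ⟨h8, h8⟩))]
    · rw [if_neg h8, if_neg]
      rintro (hh | hh | ⟨hh, -⟩)
      · exact hin hh
      · exact hr hh
      · exact h8 hh

/-- Contour sums of `NK`: member faces. -/
theorem contour_member (x : V → ℂ) {g : D} (hr : T.Rel σ d g) :
    T.NK σ d g * (x (T.tgt g) - x (T.src g)) +
      T.NK σ d (T.nxt g) * (x (T.tgt (T.nxt g)) - x (T.src (T.nxt g))) +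
      T.NK σ d (T.nxt (T.nxt g)) * (x (T.tgt (T.nxt (T.nxt g))) - x (T.src (T.nxt (T.nxt g)))) =
      x (T.src g) - x (T.apex g) := by
  obtain ⟨h1, h2, h3⟩ := T.NK_member hP h hg hr
  rw [h1, h2, h3, T.tgt_nxt2, src_nxt2]
  ring

/-- Contour sums of `NK`: other faces. -/
theorem contour_not (x : V → ℂ) {g : D} (h0 : ¬ T.Rel σ d g) (h1 : ¬ T.Rel σ d (T.nxt g))
    (h2 : ¬ T.Rel σ d (T.nxt (T.nxt g))) :
    T.NK σ d g * (x (T.tgt g) - x (T.src g)) +
      T.NK σ d (T.nxt g) * (x (T.tgt (T.nxt g)) - x (T.src (T.nxt g))) +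
      T.NK σ d (T.nxt (T.nxt g)) * (x (T.tgt (T.nxt (T.nxt g))) - x (T.src (T.nxt (T.nxt g)))) = 0 := by
  set c : ℂ := if T.pot σ d g = 1 then 1 else 0 with hc
  have key : ∀ e, (e = g ∨ e = T.nxt g ∨ e = T.nxt (T.nxt g)) →
      T.NK σ d e * (x (T.tgt e) - x (T.src e)) = c * (x (T.tgt e) - x (T.src e)) := by
    intro e he
    by_cases hne : T.src e = T.tgt e
    · rw [hne]; ring
    · rw [T.NK_face hP h hg h0 h1 h2 e he hne]
  rw [key g (Or.inl rfl), key _ (Or.inr (Or.inl rfl)), key _ (Or.inr (Or.inr rfl))]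
  rw [T.tgt_nxt2, src_nxt2, tgt_nxt, src_nxt']
  ring

/-- `NK` vanishes at the minority vertex of the face of `d`. -/
theorem NK_minority {e : D} (he : T.src e = T.tgt d) : T.NK σ d e = 0 := by
  obtain ⟨h0, l, h1, h2, h3, h4, h5⟩ := T.pot_spec hP h hg
  have hnv : ∀ f ∈ T.rev (T.nxt (T.nxt d)) :: l, T.src f ≠ T.tgt d := by
    intro f hf hh
    have := (T.inG_col ((h5 f).1 hf)).1
    rw [hh] at this
    exact h.1 this.symm
  have hnt : ∀ f ∈ T.rev (T.nxt (T.nxt d)) :: l, T.tgt f ≠ T.tgt d := by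
    intro f hf hh
    have := (T.inG_col ((h5 f).1 hf)).2
    rw [hh] at this
    exact h.1 this.symm
  have hc := T.const_at h2 h1.1 h1.2 (d := T.nxt d) (e := e) (by rw [src_nxt', he])
    (by rw [src_nxt']; exact hnv)
  rw [h1.1, h0] at hc
  unfold NK
  rw [if_neg]
  rintro (hh | hh | ⟨hh, -⟩)
  · exact hnv e ((h5 e).2 hh) he
  · exact hnt _ ((h5 _).2 hh) (by rw [T.tgt_rev, he])
  · rw [← hc] at hh; exact absurd hh (by decide)

end

end Tri

end Vale.Agent.P148.R2.H258
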