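import Vale.Agent.P148.R2.H258.A3

namespace Vale.Agent.P148.R2.H258

open Function

namespace Tri

variable {V D : Type*} (T : Tri V D)

open Classical in
/-- Last visit of the strand of `d` to the third vertex of its face. -/
noncomputable def jst (σ : V → Bool) (d : D) : ℕ :=
  Nat.findGreatest (fun j => T.src ((T.st σ)^[j] d) = T.apex d) (minimalPeriod (T.st σ) d)

/-- The next member of the class. -/
noncomputable def nx (σ : V → Bool) (d : D) : D := (T.st σ)^[T.jst σ d] d

theorem src_iter_one {σ : V → Bool} {d : D} (h : T.Mi σ d) :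
    T.src ((T.st σ)^[1] d) = T.apex d := by
  rw [iterate_one, T.src_st_mi h]

section

variable [Finite D] {σ : V → Bool} {d : D} (h : T.Mi σ d)
include h

theorem jst_spec : T.src ((T.st σ)^[T.jst σ d] d) = T.apex d := by
  classical
  unfold jst
  exact Nat.findGreatest_spec (P := fun j => T.src ((T.st σ)^[j] d) = T.apex d)
    (T.pos_period σ d) (T.src_iter_one h)

theorem one_le_jst : 1 ≤ T.jst σ d := by
  classical
  unfold jst
  exact Nat.le_findGreatest (P := fun j => T.src ((T.st σ)^[j] d) = T.apex d)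
    (T.pos_period σ d) (T.src_iter_one h)

omit h [Finite D] in
theorem jst_max {k : ℕ} (h1 : T.jst σ d < k) (h2 : k ≤ minimalPeriod (T.st σ) d) :
    T.src ((T.st σ)^[k] d) ≠ T.apex d := by
  classical
  unfold jst at h1
  exact Nat.findGreatest_is_greatest (P := fun j => T.src ((T.st σ)^[j] d) = T.apex d) h1 h2

theorem jst_lt (hg : T.apex d ≠ T.src d) : T.jst σ d < minimalPeriod (T.st σ) d := by
  classical
  have h1 : T.jst σ d ≤ minimalPeriod (T.st σ) d := by
    unfold jst
    exact Nat.findGreatest_le _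
  rcases h1.lt_or_eq with h2 | h2
  · exact h2
  · exfalso
    have h3 := T.jst_spec h
    rw [h2, iterate_minimalPeriod] at h3
    exact hg h3.symm

theorem src_nx : T.src (T.nx σ d) = T.apex d := T.jst_spec h

theorem apex_nx_ne (hg : T.apex d ≠ T.src d) :
    T.src (T.st σ (T.nx σ d)) ≠ T.src (T.nx σ d) := by
  rw [T.src_nx h]
  have h1 := T.jst_lt h hg
  have := T.jst_max (σ := σ) (d := d) (k := T.jst σ d + 1) (by omega) (by omega)
  rw [iterate_succ', comp_apply] at this
  exact this

theorem bi_nx : T.Bi σ (T.nx σ d) := (T.bi_iter _).2 h.bi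

theorem mi_nx (hg : T.apex d ≠ T.src d) : T.Mi σ (T.nx σ d) := by
  by_contra hc
  exact T.apex_nx_ne h hg (T.src_st_nmi (T.bi_nx h) hc)

theorem nd_nx (hg : T.apex d ≠ T.src d) : T.apex (T.nx σ d) ≠ T.src (T.nx σ d) := by
  have := T.apex_nx_ne h hg
  rwa [T.src_st_mi (T.mi_nx h hg)] at this

end

/-- Non crossing lemma. -/
theorem disj_jst [Finite D] (hP : T.Planar) {σ : V → Bool} {d : D} (h : T.Mi σ d)
    (hg : T.apex d ≠ T.src d) : T.Disj σ d (T.jst σ d) := by
  set L := minimalPeriod (T.st σ) d with hL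
  set j := T.jst σ d with hj
  have hj1 : 1 ≤ j := T.one_le_jst h
  have hjL : j < L := T.jst_lt h hg
  have hjs : T.src ((T.st σ)^[j] d) = T.apex d := T.jst_spec h
  intro i k h1 h2 h3 h4 hx
  have hik : T.src ((T.st σ)^[i] d) ≠ T.apex d := by
    intro hh
    exact T.jst_max (σ := σ) (d := d) h3 h4 (by rw [← hx, hh])
  have hij : i ≠ j := fun hh => hik (by rw [hh, hjs])
  have hi1 : i ≠ 1 := fun hh => hik (by rw [hh, T.src_iter_one h])
  -- the closed walk
  have hbSd : T.Bi σ (T.st σ d) := T.bi_st.2 h.bi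
  have hsh1 : ∀ k, (T.st σ)^[k] (T.st σ d) = (T.st σ)^[k + 1] d := by
    intro k; rw [iterate_succ_apply]
  have hw2 := T.rw_walk hbSd (j - 1)
  rw [hsh1, Nat.sub_add_cancel hj1] at hw2
  have hw1 : T.Walk (T.apex d) (T.tgt (T.st σ d)) [T.st σ d] := by
    have := Walk.single (T := T) (T.st σ d)
    rwa [T.src_st_mi h] at this
  have hw3 : T.Walk (T.tgt ((T.st σ)^[j] d)) (T.apex d) [T.rev ((T.st σ)^[j] d)] := by
    have := Walk.single (T := T) (T.rev ((T.st σ)^[j] d))
    rwa [T.src_rev, T.tgt_rev, hjs] at this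
  set r := T.rw' σ (T.st σ d) (j - 1) with hr
  have hG : T.Walk (T.apex d) (T.apex d) ([T.st σ d] ++ (r ++ [T.rev ((T.st σ)^[j] d)])) :=
    hw1.append (hw2.append hw3)
  have hrm : ∀ g ∈ r, σ (T.src g) = σ (T.tgt d) ∧ σ (T.tgt g) = σ (T.tgt d) := by
    intro g hg'
    obtain ⟨k, _, e1, e2⟩ := T.rw_mem hbSd hg'
    rw [hsh1] at e1 e2
    rw [e1, e2]
    exact ⟨T.col_tgt_iter σ d _, T.col_tgt_iter σ d _⟩
  obtain ⟨N, hN1, hN2⟩ := hP _ _ hG
  set Γ := [T.st σ d] ++ (r ++ [T.rev ((T.st σ)^[j] d)]) with hΓ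
  have hne : ∀ k m, 1 ≤ k → k ≤ L → 1 ≤ m → m < L → m ≠ k →
      (T.st σ)^[k] d ≠ (T.st σ)^[m] d := by
    intro k m a1 a2 a3 a4 a5 hh
    rcases a2.lt_or_eq with a6 | a6
    · exact a5 ((iterate_eq_iterate_iff_of_lt_minimalPeriod a6 a4).1 hh).symm
    · rw [a6, hL, iterate_minimalPeriod] at hh
      have := (iterate_eq_iterate_iff_of_lt_minimalPeriod (f := T.st σ) (x := d)
        (show 0 < L by omega) a4).1 (by simpa using hh)
      omega
  have hmu : ∀ k, 1 ≤ k → k ≤ L → T.mu Γ ((T.st σ)^[k] d) =
      (if k = 1 then 1 else 0) + (if k = j then 1 else 0) := by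
    intro k hk1 hk2
    have c1 := T.col_src_iter σ d k
    have c2 := T.col_tgt_iter σ d k
    rw [hΓ, T.mu_append, T.mu_append]
    have z2 : T.mu r ((T.st σ)^[k] d) = 0 := by
      apply T.mu_zero
      · intro hm
        have := hrm _ hm
        rw [c1] at this
        exact h.1 this.1
      · intro hm
        have := hrm _ hm
        rw [T.src_rev, T.tgt_rev, c1, c2] at this
        exact h.1 this.2
    have z1 : T.mu [T.st σ d] ((T.st σ)^[k] d) = if k = 1 then 1 else 0 := by
      rw [T.mu_cons, T.mu_nil]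
      have n2 : T.st σ d ≠ T.rev ((T.st σ)^[k] d) := by
        intro hh
        have h3 := congrArg (fun f => σ (T.src f)) hh
        simp only [T.src_rev] at h3
        rw [c2, T.col_src_st σ] at h3
        exact h.1 h3
      by_cases hk : k = 1
      · subst hk
        rw [iterate_one] at n2 ⊢
        simp [n2]
      · have n1 : T.st σ d ≠ (T.st σ)^[k] d := by
          intro hh
          exact hne k 1 hk1 hk2 le_rfl (by omega) (by omega) (by simpa using hh.symm)
        simp [n1, n2, hk]
    have z3 : T.mu [T.rev ((T.st σ)^[j] d)] ((T.st σ)^[k] d) = if k = j then 1 else 0 := by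
      rw [T.mu_cons, T.mu_nil]
      have n1 : T.rev ((T.st σ)^[j] d) ≠ (T.st σ)^[k] d := by
        intro hh
        have h3 := congrArg (fun f => σ (T.src f)) hh
        simp only [T.src_rev] at h3
        rw [c1, T.col_tgt_iter σ d] at h3
        exact h.1 h3.symm
      by_cases hk : k = j
      · subst hk; simp [n1]
      · have n2 : T.rev ((T.st σ)^[j] d) ≠ T.rev ((T.st σ)^[k] d) := by
          intro hh
          have := congrArg T.rev hh
          rw [T.rev_rev, T.rev_rev] at this
          exact hne k j hk1 hk2 hj1 hjL (Ne.symm hk) this.symm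
        simp [n1, n2, hk]
    rw [z1, z2, z3]; ring
  have hstep : ∀ k, N ((T.st σ)^[k + 1] d) = N ((T.st σ)^[k] d) + T.mu Γ ((T.st σ)^[k + 1] d) := by
    intro k
    have hbk : T.Bi σ ((T.st σ)^[k] d) := (T.bi_iter k).2 h.bi
    have hbk1 : T.Bi σ ((T.st σ)^[k + 1] d) := (T.bi_iter (k + 1)).2 h.bi
    have h3 := hN2 ((T.st σ)^[k + 1] d) (Or.inl (fun hh => hbk1 (by rw [hh])))
    have h4 : N (T.rev ((T.st σ)^[k + 1] d)) = N ((T.st σ)^[k] d) := by
      rw [iterate_succ', comp_apply]; exact T.face_st hN1 hbk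
    rw [h4] at h3
    rw [← h3]
    generalize N ((T.st σ)^[k + 1] d) = a
    generalize N ((T.st σ)^[k] d) = b
    revert a b; decide
  have hA : ∀ k, 1 ≤ k → k < j → N ((T.st σ)^[k] d) = N d + 1 := by
    intro k
    induction k with
    | zero => intro hk; omega
    | succ k ih =>
      intro _ hk
      rw [hstep k, hmu (k + 1) (by omega) (by omega), if_neg (show ¬ k + 1 = j by omega)]
      rcases Nat.eq_zero_or_pos k with rfl | hk0
      · simp
      · rw [ih hk0 (by omega), if_neg (show ¬ k + 1 = 1 by omega)]; ring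
  have hB : ∀ k, j + k ≤ L → N ((T.st σ)^[j + k] d) = N d := by
    intro k
    induction k with
    | zero =>
      intro _
      have := hstep (j - 1)
      rw [Nat.sub_add_cancel hj1] at this
      rw [add_zero, this, hmu j hj1 hjL.le, hA (j - 1) (by omega) (by omega),
        if_neg (show ¬ j = 1 by omega), if_pos rfl]
      generalize N d = a
      revert a; decide
    | succ k ih =>
      intro hk
      have := hstep (j + k)
      rw [show j + (k + 1) = j + k + 1 by ring, this, ih (by omega),
        hmu (j + k + 1) (by omega) (by omega), if_neg (show ¬ j + k + 1 = 1 by omega),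
        if_neg (show ¬ j + k + 1 = j by omega)]
      ring
  have e1 := hA i h1 (by omega)
  have e2 := hB (k - j) (by omega)
  rw [show j + (k - j) = k by omega] at e2
  have hnv : ∀ f ∈ Γ, T.src f ≠ T.src ((T.st σ)^[i] d) := by
    intro f hf hh
    simp only [hΓ, List.mem_append, List.mem_singleton] at hf
    rcases hf with hf | hf | hf
    · rw [hf, T.src_st_mi h] at hh
      exact hik hh.symm
    · have := (hrm _ hf).1
      rw [hh, T.col_src_iter σ d] at this
      exact h.1 this
    · rw [hf, T.src_rev] at hh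
      have := T.col_src_iter σ d i
      rw [← hh, T.col_tgt_iter σ d] at this
      exact h.1 this.symm
  have e3 := T.const_at hG hN1 hN2 hx hnv
  rw [e1, e2] at e3
  revert e3
  generalize N d = a
  revert a; decide

theorem rel_nx [Finite D] (hP : T.Planar) {σ : V → Bool} {d : D} (h : T.Mi σ d)
    (hg : T.apex d ≠ T.src d) : T.Rel σ d (T.nx σ d) :=
  ⟨h, T.mi_nx h hg, T.jst σ d, T.jst_lt h hg, rfl, T.disj_jst hP h hg⟩

/-- Positions of the class members along the strand. -/
noncomputable def pos (σ : V → Bool) (d : D) : ℕ → ℕ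
  | 0 => 0
  | i + 1 => pos σ d i + T.jst σ ((T.st σ)^[pos σ d i] d)

theorem pos_zero (σ : V → Bool) (d : D) : T.pos σ d 0 = 0 := rfl

theorem pos_succ (σ : V → Bool) (d : D) (i : ℕ) :
    T.pos σ d (i + 1) = T.pos σ d i + T.jst σ ((T.st σ)^[T.pos σ d i] d) := rfl

theorem iter_pos_succ (σ : V → Bool) (d : D) (i : ℕ) :
    (T.st σ)^[T.pos σ d (i + 1)] d = T.nx σ ((T.st σ)^[T.pos σ d i] d) := by
  rw [pos_succ, add_comm, iterate_add_apply]; rfl

theorem rel_pos [Finite D] {σ : V → Bool} {d : D} {n : ℕ} (hn : n < minimalPeriod (T.st σ) d)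
    (h : T.Rel σ d ((T.st σ)^[n] d)) : T.Disj σ d n := by
  obtain ⟨-, -, m, hm, hme, hdis⟩ := h
  have := (iterate_eq_iterate_iff_of_lt_minimalPeriod hm hn).1 hme
  rwa [this] at hdis

theorem pos_props [Finite D] (hP : T.Planar) {σ : V → Bool} {d : D} (h : T.Mi σ d)
    (hg : T.apex d ≠ T.src d) (i : ℕ) (hi : ∀ k ≤ i, T.pos σ d k < minimalPeriod (T.st σ) d) :
    T.Mi σ ((T.st σ)^[T.pos σ d i] d) ∧
    T.apex ((T.st σ)^[T.pos σ d i] d) ≠ T.src ((T.st σ)^[T.pos σ d i] d) ∧
    T.Disj σ d (T.pos σ d i) ∧ T.Rel σ d ((T.st σ)^[T.pos σ d i] d) := by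
  induction i with
  | zero => exact ⟨h, hg, by intro a b h1 h2; rw [pos_zero] at h2; omega, T.rel_refl h⟩
  | succ i ih =>
    obtain ⟨h1, h2, h3, h4⟩ := ih (fun k hk => hi k (by omega))
    have h5 := T.rel_nx hP h1 h2
    rw [← T.iter_pos_succ] at h5
    have h6 := T.rel_trans h4 h5
    refine ⟨h5.2.1, ?_, T.rel_pos (hi _ le_rfl) h6, h6⟩
    rw [T.iter_pos_succ]
    exact T.nd_nx h1 h2

theorem pos_step [Finite D] (hP : T.Planar) {σ : V → Bool} {d : D} (h : T.Mi σ d)
    (hg : T.apex d ≠ T.src d) (i : ℕ) (hi : ∀ k ≤ i, T.pos σ d k < minimalPeriod (T.st σ) d) :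
    T.pos σ d i < T.pos σ d (i + 1) ∧ T.pos σ d (i + 1) ≤ minimalPeriod (T.st σ) d := by
  obtain ⟨h1, h2, h3, h4⟩ := T.pos_props hP h hg i hi
  set p := T.pos σ d i with hp
  set L := minimalPeriod (T.st σ) d with hL
  have hpL : p < L := hi i le_rfl
  rw [pos_succ, ← hp]
  have h5 := T.one_le_jst h1
  have h6 := T.jst_lt h1 h2
  rw [T.period_iter, ← hL] at h6
  refine ⟨by omega, ?_⟩
  by_contra hc
  push Not at hc
  have h7 := T.jst_spec h1
  rw [← iterate_add_apply, T.iter_sub σ d (by omega)] at h7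
  have h8 := T.src_iter_one h1
  rw [← iterate_add_apply] at h8
  exact h3 _ (1 + p) (by omega) (by omega) (by omega) (by omega) (h7.trans h8.symm)

/-- The class of `d` is a cycle, with distinct sources. -/
theorem class_cycle [Finite D] (hP : T.Planar) {σ : V → Bool} {d : D} (h : T.Mi σ d)
    (hg : T.apex d ≠ T.src d) : ∃ (m : ℕ) (f : ℕ → D), 1 ≤ m ∧ f 0 = d ∧ f m = d ∧
      (∀ i < m, T.src (f (i + 1)) = T.apex (f i)) ∧
      (∀ i < m, ∀ k < m, T.src (f i) = T.src (f k) → i = k) ∧
      (∀ g, T.Rel σ d g ↔ ∃ i < m, g = f i) ∧ (∀ i < m, T.apex (f i) ≠ T.src (f i)) := by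
  classical
  set L := minimalPeriod (T.st σ) d with hL
  have hL0 : 0 < L := T.pos_period σ d
  have hex : ∃ m, L ≤ T.pos σ d m := by
    by_contra hc
    push Not at hc
    have : ∀ i, i ≤ T.pos σ d i := by
      intro i
      induction i with
      | zero => exact Nat.zero_le _
      | succ i ih =>
        have := (T.pos_step hP h hg i (fun k _ => hc k)).1
        omega
    have h1 := this L
    have h2 := hc L
    omega
  set m := Nat.find hex with hm
  have hm1 : L ≤ T.pos σ d m := Nat.find_spec hex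
  have hm2 : ∀ k < m, T.pos σ d k < L := fun k hk => by
    have := Nat.find_min hex hk
    push Not at this
    exact this
  have hm0 : 1 ≤ m := by
    rcases Nat.eq_zero_or_pos m with h0 | h0
    · rw [h0, pos_zero] at hm1; omega
    · exact h0
  have hmL : T.pos σ d m = L := by
    have := (T.pos_step hP h hg (m - 1) (fun k hk => hm2 k (by omega))).2
    rw [Nat.sub_add_cancel hm0] at this
    omega
  have hmono : ∀ i k, i < k → k ≤ m → T.pos σ d i < T.pos σ d k := by
    intro i k hik
    induction k with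
    | zero => omega
    | succ k ih =>
      intro hk
      have h1 := (T.pos_step hP h hg k (fun l hl => hm2 l (by omega))).1
      rcases Nat.lt_succ_iff_lt_or_eq.1 hik with h2 | h2
      · have := ih h2 (by omega); omega
      · rw [h2]; exact h1
  have hprops := fun i (hi : i < m) => T.pos_props hP h hg i (fun k hk => hm2 k (by omega))
  refine ⟨m, fun i => (T.st σ)^[T.pos σ d i] d, hm0, rfl, ?_, ?_, ?_, ?_, ?_⟩
  · simp only [hmL, hL, iterate_minimalPeriod]
  · intro i hi
    simp only
    rw [T.iter_pos_succ, T.src_nx (hprops i hi).1]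
  · have key : ∀ i k, i < k → k < m →
        T.src ((T.st σ)^[T.pos σ d i] d) ≠ T.src ((T.st σ)^[T.pos σ d k] d) := by
      intro i k hik hk hh
      rcases Nat.eq_zero_or_pos i with h0 | h0
      · subst h0
        rw [pos_zero, iterate_zero, id_eq] at hh
        have h1 := (hprops k hk).2.2.1 (T.pos σ d k) L (by have := hmono 0 k hik hk.le; omega)
          le_rfl (hm2 k hk) le_rfl
        rw [hL, iterate_minimalPeriod] at h1
        exact h1 hh.symm
      · have h1 := (hprops i (by omega)).2.2.1 (T.pos σ d i) (T.pos σ d k)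
          (by have := hmono 0 i h0 (by omega); omega) le_rfl (hmono i k hik hk.le) (hm2 k hk).le
        exact h1 hh
    intro i hi k hk hh
    rcases lt_trichotomy i k with h1 | h1 | h1
    · exact absurd hh (key i k h1 hk)
    · exact h1
    · exact absurd hh.symm (key k i h1 hi)
  · intro g
    constructor
    · rintro ⟨-, -, n, hn, hne, hdis⟩
      -- the last i with pos i ≤ n
      have hex2 : ∃ i, i < m ∧ T.pos σ d i ≤ n ∧ n < T.pos σ d (i + 1) := by
        by_contra hc
        push Not at hc
        have : ∀ i, i ≤ m → T.pos σ d i ≤ n := by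
          intro i
          induction i with
          | zero => intro _; rw [pos_zero]; exact Nat.zero_le _
          | succ i ih =>
            intro hi
            exact hc i (by omega) (ih (by omega))
        have := this m le_rfl
        omega
      obtain ⟨i, hi, h1, h2⟩ := hex2
      refine ⟨i, hi, ?_⟩
      rcases h1.lt_or_eq with h3 | h3
      · exfalso
        have h4 := T.jst_spec (hprops i hi).1
        have h5 := T.src_iter_one (hprops i hi).1
        rw [← iterate_add_apply, add_comm, ← pos_succ] at h4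
        rw [← iterate_add_apply] at h5
        exact hdis (1 + T.pos σ d i) (T.pos σ d (i + 1)) (by omega) (by omega) h2
          (by have := (T.pos_step hP h hg i (fun k hk => hm2 k (by omega))).2; omega)
          (h5.trans h4.symm)
      · rw [← hne, ← h3]
    · rintro ⟨i, hi, rfl⟩
      exact (hprops i hi).2.2.2
  · intro i hi
    exact (hprops i hi).2.1

end Tri

end Vale.Agent.P148.R2.H258
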