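import Vale.Agent.P148.R2.H258.A8

namespace Vale.Agent.P148.R2.H258

open Function ComplexConjugate

namespace Tri

variable {V D : Type*} (T : Tri V D)

/-- The spin one observable. -/
noncomputable def MM [Fintype V] (τ : ℂ) (o e : D) : ℂ :=
  T.HH o e + τ * T.HH (T.nxt o) e + τ ^ 2 * T.HH (T.nxt (T.nxt o)) e

/-- The face part of the spin one observable. -/
noncomputable def MF [Fintype V] (τ : ℂ) (o e : D) : ℂ :=
  T.KK o e + τ * T.KK (T.nxt o) e + τ ^ 2 * T.KK (T.nxt (T.nxt o)) e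

/-- The face of `o`. -/
def InFace (o d : D) : Prop := d = o ∨ d = T.nxt o ∨ d = T.nxt (T.nxt o)

theorem inFace_nxt {o d : D} : T.InFace o (T.nxt d) ↔ T.InFace o d := by
  have inj : ∀ {x y : D}, T.nxt x = T.nxt y ↔ x = y := T.nxtEquiv.injective.eq_iff
  unfold InFace
  rw [inj, inj]
  have : T.nxt d = o ↔ d = T.nxt (T.nxt o) := by
    constructor
    · intro h; rw [← h, T.nxt3]
    · intro h; rw [h, T.nxt3]
  rw [this]
  tauto

section

variable [Fintype V] [Finite D] (hP : T.Planar) {τ : ℂ} (hτ : τ ^ 2 + τ + 1 = 0) {o : D}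
  (ho : T.Good o)

theorem MM_rev (τ : ℂ) (o e : D) : T.MM τ o (T.rev e) = T.MM τ o e := by
  unfold MM; rw [T.HH_rev, T.HH_rev, T.HH_rev]

include hP ho

theorem MM_eq {e : D} (hne : T.src e ≠ T.tgt e) :
    T.MM τ o e = T.MF τ o e + T.UU τ o (T.nxt e) := by
  unfold MM MF UU
  rw [T.HH_eq hP ho hne, T.HH_eq hP ho.nxt hne, T.HH_eq hP ho.nxt.nxt hne]
  ring

theorem MF_nxt (e : D) : T.MF τ o (T.nxt e) = T.MF τ o e := by
  unfold MF
  rw [T.KK_nxt hP ho, T.KK_nxt hP ho.nxt, T.KK_nxt hP ho.nxt.nxt]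

/-- Contour sums of the spin one observable, first form. -/
theorem contour_MM' (x : V → ℂ) (g : D) :
    T.MM τ o g * (x (T.tgt g) - x (T.src g)) +
      T.MM τ o (T.nxt g) * (x (T.tgt (T.nxt g)) - x (T.src (T.nxt g))) +
      T.MM τ o (T.nxt (T.nxt g)) * (x (T.tgt (T.nxt (T.nxt g))) - x (T.src (T.nxt (T.nxt g)))) =
      T.UU τ o g * (x (T.src g) - x (T.apex g)) +
      T.UU τ o (T.nxt g) * (x (T.src (T.nxt g)) - x (T.apex (T.nxt g))) +
      T.UU τ o (T.nxt (T.nxt g)) * (x (T.src (T.nxt (T.nxt g))) - x (T.apex (T.nxt (T.nxt g)))) := by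
  have h0 := T.contour_HH hP ho x g
  have h1 := T.contour_HH hP ho.nxt x g
  have h2 := T.contour_HH hP ho.nxt.nxt x g
  unfold MM UU
  linear_combination h0 + τ * h1 + τ ^ 2 * h2

include hτ

/-- Contour sums of the spin one observable. -/
theorem contour_MM (x : V → ℂ) {g : D} (hg : ¬ T.InFace o g) :
    T.MM τ o g * (x (T.tgt g) - x (T.src g)) +
      T.MM τ o (T.nxt g) * (x (T.tgt (T.nxt g)) - x (T.src (T.nxt g))) +
      T.MM τ o (T.nxt (T.nxt g)) * (x (T.tgt (T.nxt (T.nxt g))) - x (T.src (T.nxt (T.nxt g)))) =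
      (1 - τ ^ 2) * T.UU τ o g * (x (T.src g) + τ ^ 2 * x (T.tgt g) + τ * x (T.apex g)) := by
  have h3 := tau_pow_three hτ
  have hrot : ∀ g, ¬ T.InFace o g → T.UU τ o (T.nxt g) = τ ^ 2 * T.UU τ o g := by
    intro g hg
    unfold InFace at hg
    push Not at hg
    exact T.UU_nxt hP hτ hg.1 hg.2.1 hg.2.2
  rw [T.contour_MM' hP ho x g, hrot (T.nxt g) (fun h => hg (T.inFace_nxt.1 h)), hrot g hg]
  rw [src_nxt', apex_nxt, src_nxt2, apex_nxt2]
  linear_combination (T.UU τ o g * x (T.apex g) * (τ + 1)) * h3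

end

/-- Expected value of a weight on the class of `o`, given that `o` is a minority dart. -/
noncomputable def EE [Fintype V] [Fintype D] (o : D) (Θ : D → ℂ) : ℂ := ∑ d, T.cc o d * Θ d

open Classical in
theorem EE_eq [Fintype V] [Fintype D] (o : D) (Θ : D → ℂ) : T.EE o Θ =
    4 / 2 ^ Fintype.card V * ∑ σ : V → Bool, T.cls σ o Θ := by
  unfold EE cls cc
  rw [Finset.sum_comm, Finset.mul_sum]
  apply Finset.sum_congr rfl
  intro d _
  rw [mul_assoc, T.cnt_symm, T.cnt_eq_sum, Finset.sum_mul]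
  congr 1
  apply Finset.sum_congr rfl
  intro σ _
  split_ifs <;> simp

theorem EE_rot [Fintype V] [Fintype D] (hP : T.Planar) {τ : ℂ} {Θ : D → ℂ}
    (h : ∀ d, Θ (T.nxt d) = τ ^ 2 * Θ d) {o : D} (ho : Θ o = 0) :
    T.EE (T.nxt (T.nxt o)) Θ = τ ^ 2 * T.EE o Θ := by
  have := T.sum_rot hP h ho
  unfold EE cc
  have e1 : ∀ p : D, ∑ d, 4 / 2 ^ Fintype.card V * (T.cnt p d : ℂ) * Θ d =
      4 / 2 ^ Fintype.card V * ∑ d, (T.cnt d p : ℂ) * Θ d := by
    intro p
    rw [Finset.mul_sum]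
    apply Finset.sum_congr rfl
    intro d _
    rw [T.cnt_symm p d]; ring
  rw [e1, e1, this]; ring

/-- First moments of the classes of the outer face, three colours. -/
theorem EE_rot' [Fintype V] [Fintype D] (hP : T.Planar) {τ : ℂ} (hτ : τ ^ 2 + τ + 1 = 0)
    {Θ : D → ℂ} (h : ∀ d, Θ (T.nxt d) = τ ^ 2 * Θ d) {o : D} (ho : Θ o = 0) :
    T.EE (T.nxt o) Θ = τ * T.EE o Θ ∧ T.EE (T.nxt (T.nxt o)) Θ = τ ^ 2 * T.EE o Θ := by
  have h3 := tau_pow_three hτ
  have h2 := T.EE_rot hP h ho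
  refine ⟨?_, h2⟩
  have h1 := T.EE_rot hP h (o := T.nxt o) (by rw [h, ho, mul_zero])
  rw [T.nxt3] at h1
  rw [h1]
  linear_combination (-T.EE (T.nxt o) Θ) * h3

/-- The weight of a function on the vertices. -/
def PW (τ : ℂ) (x : V → ℂ) (d : D) : ℂ := x (T.tgt d) + τ * x (T.apex d) + τ ^ 2 * x (T.src d)

theorem PW_nxt {τ : ℂ} (hτ : τ ^ 2 + τ + 1 = 0) (x : V → ℂ) (d : D) :
    T.PW τ x (T.nxt d) = τ ^ 2 * T.PW τ x d := by
  have h3 := tau_pow_three hτ
  unfold PW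
  rw [tgt_nxt, apex_nxt, src_nxt']
  linear_combination (-x (T.apex d) - τ * x (T.src d)) * h3

/-- Displacement identity. -/
theorem PW_sub {τ : ℂ} (hτ : τ ^ 2 + τ + 1 = 0) (x : V → ℂ) (d : D) :
    T.PW τ x d - conj (T.PW τ (fun v => conj (x v)) d) =
      (τ - τ ^ 2) * (x (T.apex d) - x (T.src d)) := by
  have hc := conj_tau hτ
  have h3 := tau_pow_three hτ
  unfold PW
  simp only [map_add, map_mul, map_pow, hc, Complex.conj_conj]
  linear_combination (-τ * x (T.src d)) * h3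

theorem conj_HH [Fintype V] (o e : D) : conj (T.HH o e) = T.HH o e := by
  unfold HH
  rw [map_mul, map_sum]
  congr 1
  · rw [map_div₀, map_pow, map_ofNat, map_ofNat]
  · apply Finset.sum_congr rfl
    intro σ _
    unfold NK
    split_ifs <;> simp

theorem conj_cc [Fintype V] (o e : D) : conj (T.cc o e) = T.cc o e := by
  unfold cc
  rw [map_mul, map_div₀, map_pow, map_ofNat, map_ofNat, map_natCast]

theorem conj_EE [Fintype V] [Fintype D] (o : D) (Θ : D → ℂ) :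
    conj (T.EE o Θ) = T.EE o (fun d => conj (Θ d)) := by
  unfold EE
  rw [map_sum]
  apply Finset.sum_congr rfl
  intro d _
  rw [map_mul, T.conj_cc]

/-- Weighted contour sums of one observable. -/
theorem weighted_HH [Fintype V] [Fintype D] (hP : T.Planar) {o : D} (ho : T.Good o) {χ : D → ℂ}
    (hχ : ∀ d, χ (T.nxt d) = χ d) (x : V → ℂ) :
    ∑ d, χ d * T.HH o d * (x (T.tgt d) - x (T.src d)) =
      - T.EE o (fun d => χ d * (x (T.apex d) - x (T.src d))) := by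
  have h3 : ∀ f : D → ℂ, 3 * ∑ d, f d = ∑ d, (f d + f (T.nxt d) + f (T.nxt (T.nxt d))) := by
    intro f
    rw [Finset.sum_add_distrib, Finset.sum_add_distrib, T.sum_nxt (fun d => f (T.nxt d)),
      T.sum_nxt f]
    ring
  have h4 : (3 : ℂ) * ∑ d, χ d * T.HH o d * (x (T.tgt d) - x (T.src d)) =
      3 * (- T.EE o (fun d => χ d * (x (T.apex d) - x (T.src d)))) := by
    unfold EE
    rw [← Finset.sum_neg_distrib, h3, h3]
    apply Finset.sum_congr rfl
    intro d _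
    have := T.contour_HH hP ho x d
    simp only [hχ]
    linear_combination χ d * this
  exact mul_left_cancel₀ (by norm_num) h4

section

variable [Fintype V] [Fintype D] (hP : T.Planar) {τ : ℂ} (hτ : τ ^ 2 + τ + 1 = 0) {o : D}
  (ho : T.Good o) {χ : D → ℝ} (hχ : ∀ d, χ (T.nxt d) = χ d) (hχo : χ o = 0) (x : V → ℂ)

theorem EE_add (o : D) (Θ Θ' : D → ℂ) : T.EE o (fun d => Θ d + Θ' d) = T.EE o Θ + T.EE o Θ' := by
  unfold EE
  rw [← Finset.sum_add_distrib]
  apply Finset.sum_congr rfl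
  intro d _
  ring

theorem EE_smul (o : D) (a : ℂ) (Θ : D → ℂ) : T.EE o (fun d => a * Θ d) = a * T.EE o Θ := by
  unfold EE
  rw [Finset.mul_sum]
  apply Finset.sum_congr rfl
  intro d _
  ring

include hτ in
theorem disp_EE (o : D) (χ : D → ℝ) :
    (τ - τ ^ 2) * T.EE o (fun d => χ d * (x (T.apex d) - x (T.src d))) =
      T.EE o (fun d => χ d * T.PW τ x d) -
      conj (T.EE o (fun d => χ d * T.PW τ (fun v => conj (x v)) d)) := by
  rw [T.conj_EE]
  unfold EE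
  rw [Finset.mul_sum, ← Finset.sum_sub_distrib]
  apply Finset.sum_congr rfl
  intro d _
  have := T.PW_sub hτ x d
  simp only [map_mul, Complex.conj_ofReal]
  linear_combination (-(χ d : ℂ) * T.cc o d) * this

include hP hτ hχ hχo

/-- The three means of the spin one weight. -/
theorem EE_three : T.EE (T.nxt o) (fun d => χ d * T.PW τ x d) =
      τ * T.EE o (fun d => χ d * T.PW τ x d) ∧
    T.EE (T.nxt (T.nxt o)) (fun d => χ d * T.PW τ x d) =
      τ ^ 2 * T.EE o (fun d => χ d * T.PW τ x d) := by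
  apply T.EE_rot' hP hτ
  · intro d
    rw [hχ, T.PW_nxt hτ]; ring
  · simp [hχo]

include ho

/-- Weighted contour sums of the spin one observable. -/
theorem weighted_MM : (τ - τ ^ 2) * ∑ d, χ d * T.MM τ o d * (x (T.tgt d) - x (T.src d)) =
      3 * conj (T.EE o (fun d => χ d * T.PW τ (fun v => conj (x v)) d)) := by
  have hc := conj_tau hτ
  have h3 := tau_pow_three hτ
  have hχ' : ∀ d, ((χ (T.nxt d) : ℝ) : ℂ) = χ d := fun d => by rw [hχ]
  have w0 := T.weighted_HH (χ := fun d => (χ d : ℂ)) hP ho hχ' x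
  have w1 := T.weighted_HH (χ := fun d => (χ d : ℂ)) hP ho.nxt hχ' x
  have w2 := T.weighted_HH (χ := fun d => (χ d : ℂ)) hP ho.nxt.nxt hχ' x
  have d0 := T.disp_EE hτ x o χ
  have d1 := T.disp_EE hτ x (T.nxt o) χ
  have d2 := T.disp_EE hτ x (T.nxt (T.nxt o)) χ
  obtain ⟨a1, a2⟩ := T.EE_three hP hτ hχ hχo x
  obtain ⟨b1, b2⟩ := T.EE_three hP hτ hχ hχo (fun v => conj (x v))
  rw [a1, b1, map_mul, hc] at d1
  rw [a2, b2, map_mul, map_pow, hc] at d2
  have hsum : ∑ d, χ d * T.MM τ o d * (x (T.tgt d) - x (T.src d)) =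
      ∑ d, χ d * T.HH o d * (x (T.tgt d) - x (T.src d)) +
      τ * ∑ d, χ d * T.HH (T.nxt o) d * (x (T.tgt d) - x (T.src d)) +
      τ ^ 2 * ∑ d, χ d * T.HH (T.nxt (T.nxt o)) d * (x (T.tgt d) - x (T.src d)) := by
    rw [Finset.mul_sum, Finset.mul_sum, ← Finset.sum_add_distrib, ← Finset.sum_add_distrib]
    apply Finset.sum_congr rfl
    intro d _
    unfold MM
    ring
  rw [hsum, w0, w1, w2]
  set a := T.EE o (fun d => χ d * T.PW τ x d)
  set b := conj (T.EE o (fun d => χ d * T.PW τ (fun v => conj (x v)) d))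
  linear_combination (-d0) - τ * d1 - τ ^ 2 * d2 + (-a) * hτ + (-a * τ + b + b * (τ ^ 3 + 1)) * h3

/-- Weighted contour sums of the conjugate observable. -/
theorem weighted_conj_MM :
    (τ - τ ^ 2) * ∑ d, χ d * conj (T.MM τ o d) * (x (T.tgt d) - x (T.src d)) =
      -3 * T.EE o (fun d => χ d * T.PW τ x d) := by
  have hc := conj_tau hτ
  have h3 := tau_pow_three hτ
  have hχ' : ∀ d, ((χ (T.nxt d) : ℝ) : ℂ) = χ d := fun d => by rw [hχ]
  have w0 := T.weighted_HH (χ := fun d => (χ d : ℂ)) hP ho hχ' x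
  have w1 := T.weighted_HH (χ := fun d => (χ d : ℂ)) hP ho.nxt hχ' x
  have w2 := T.weighted_HH (χ := fun d => (χ d : ℂ)) hP ho.nxt.nxt hχ' x
  have d0 := T.disp_EE hτ x o χ
  have d1 := T.disp_EE hτ x (T.nxt o) χ
  have d2 := T.disp_EE hτ x (T.nxt (T.nxt o)) χ
  obtain ⟨a1, a2⟩ := T.EE_three hP hτ hχ hχo x
  obtain ⟨b1, b2⟩ := T.EE_three hP hτ hχ hχo (fun v => conj (x v))
  rw [a1, b1, map_mul, hc] at d1
  rw [a2, b2, map_mul, map_pow, hc] at d2
  have hsum : ∑ d, χ d * conj (T.MM τ o d) * (x (T.tgt d) - x (T.src d)) =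
      ∑ d, χ d * T.HH o d * (x (T.tgt d) - x (T.src d)) +
      τ ^ 2 * ∑ d, χ d * T.HH (T.nxt o) d * (x (T.tgt d) - x (T.src d)) +
      τ ^ 4 * ∑ d, χ d * T.HH (T.nxt (T.nxt o)) d * (x (T.tgt d) - x (T.src d)) := by
    rw [Finset.mul_sum, Finset.mul_sum, ← Finset.sum_add_distrib, ← Finset.sum_add_distrib]
    apply Finset.sum_congr rfl
    intro d _
    unfold MM
    rw [map_add, map_add, map_mul, map_mul, map_pow, hc, T.conj_HH, T.conj_HH, T.conj_HH]
    ring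
  rw [hsum, w0, w1, w2]
  set a := T.EE o (fun d => χ d * T.PW τ x d)
  set b := conj (T.EE o (fun d => χ d * T.PW τ (fun v => conj (x v)) d))
  linear_combination (-d0) - τ ^ 2 * d1 - τ ^ 4 * d2 + b * hτ +
    (-a * (τ ^ 3 + 2) + b * τ + b * τ ^ 2 * (τ ^ 3 + 1)) * h3

end

end Tri

end Vale.Agent.P148.R2.H258
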