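import Mathlib

namespace Vale.Agent.P148.R2.H258

open Function

/-- A triangulated surface in dart form. -/
structure Tri (V D : Type*) where
  src : D → V
  rev : D → D
  nxt : D → D
  rev_rev : ∀ d, rev (rev d) = d
  nxt3 : ∀ d, nxt (nxt (nxt d)) = d
  src_nxt : ∀ d, src (nxt d) = src (rev d)
  link : ∀ d e, src d = src e → Relation.EqvGen
    (fun f g => g = rev (nxt (nxt f)) ∨ (src f = src (rev f) ∧ g = rev f)) d e

namespace Tri

variable {V D : Type*} (T : Tri V D)

def tgt (d : D) : V := T.src (T.rev d)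
def apex (d : D) : V := T.src (T.nxt (T.nxt d))

theorem tgt_rev (d : D) : T.tgt (T.rev d) = T.src d := by
  simp [tgt, T.rev_rev]

theorem src_rev (d : D) : T.src (T.rev d) = T.tgt d := rfl

theorem src_nxt' (d : D) : T.src (T.nxt d) = T.tgt d := T.src_nxt d

theorem src_nxt2 (d : D) : T.src (T.nxt (T.nxt d)) = T.apex d := rfl

theorem tgt_nxt (d : D) : T.tgt (T.nxt d) = T.apex d := by
  unfold tgt apex; rw [T.src_nxt]

theorem tgt_nxt2 (d : D) : T.tgt (T.nxt (T.nxt d)) = T.src d := by
  rw [tgt_nxt]; unfold apex; rw [T.nxt3]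

theorem apex_nxt (d : D) : T.apex (T.nxt d) = T.src d := by
  unfold apex; rw [T.nxt3]

theorem apex_nxt2 (d : D) : T.apex (T.nxt (T.nxt d)) = T.tgt d := by
  rw [← tgt_nxt, T.nxt3]

/-- Good darts: the face has three distinct corners. -/
def Good (d : D) : Prop := T.src d ≠ T.tgt d ∧ T.tgt d ≠ T.apex d ∧ T.apex d ≠ T.src d

theorem Good.nxt {T : Tri V D} {d : D} (h : T.Good d) : T.Good (T.nxt d) := by
  refine ⟨?_, ?_, ?_⟩
  · rw [src_nxt', tgt_nxt]; exact h.2.1
  · rw [tgt_nxt, apex_nxt]; exact h.2.2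
  · rw [apex_nxt, src_nxt']; exact h.1

/-- Bichromatic darts. -/
def Bi (σ : V → Bool) (d : D) : Prop := σ (T.src d) ≠ σ (T.tgt d)

/-- Minority darts: the dart of a polychromatic face pointing to its minority vertex. -/
def Mi (σ : V → Bool) (d : D) : Prop := σ (T.src d) ≠ σ (T.tgt d) ∧ σ (T.apex d) = σ (T.src d)

open Classical in
/-- The strand map. -/
noncomputable def st (σ : V → Bool) (d : D) : D :=
  if σ (T.src d) = σ (T.tgt d) then d
  else if σ (T.apex d) = σ (T.src d) then T.rev (T.nxt d) else T.rev (T.nxt (T.nxt d))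

theorem Mi.bi {T : Tri V D} {σ : V → Bool} {d : D} (h : T.Mi σ d) : T.Bi σ d := h.1

theorem st_not {σ : V → Bool} {d : D} (h : ¬ T.Bi σ d) : T.st σ d = d := by
  unfold Bi at h; push Not at h; simp [st, h]

theorem st_mi {σ : V → Bool} {d : D} (h : T.Mi σ d) : T.st σ d = T.rev (T.nxt d) := by
  simp [st, h.1, h.2]

theorem st_nmi {σ : V → Bool} {d : D} (h : T.Bi σ d) (h2 : ¬ T.Mi σ d) :
    T.st σ d = T.rev (T.nxt (T.nxt d)) := by
  unfold Mi at h2
  unfold Bi at h
  have : ¬ σ (T.apex d) = σ (T.src d) := fun hh => h2 ⟨h, hh⟩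
  simp [st, h, this]

theorem bool_aux {a b c : Bool} (h1 : a ≠ b) (h2 : ¬ c = a) : c = b := by
  revert a b c; decide

theorem nmi_apex {σ : V → Bool} {d : D} (h : T.Bi σ d) (h2 : ¬ T.Mi σ d) :
    σ (T.apex d) = σ (T.tgt d) :=
  bool_aux h (fun hh => h2 ⟨h, hh⟩)

theorem src_st_mi {σ : V → Bool} {d : D} (h : T.Mi σ d) : T.src (T.st σ d) = T.apex d := by
  rw [T.st_mi h, src_rev, tgt_nxt]

theorem tgt_st_mi {σ : V → Bool} {d : D} (h : T.Mi σ d) : T.tgt (T.st σ d) = T.tgt d := by
  rw [T.st_mi h, tgt_rev, src_nxt']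

theorem src_st_nmi {σ : V → Bool} {d : D} (h : T.Bi σ d) (h2 : ¬ T.Mi σ d) :
    T.src (T.st σ d) = T.src d := by
  rw [T.st_nmi h h2, src_rev, tgt_nxt2]

theorem tgt_st_nmi {σ : V → Bool} {d : D} (h : T.Bi σ d) (h2 : ¬ T.Mi σ d) :
    T.tgt (T.st σ d) = T.apex d := by
  rw [T.st_nmi h h2, tgt_rev, src_nxt2]

theorem col_src_st (σ : V → Bool) (d : D) : σ (T.src (T.st σ d)) = σ (T.src d) := by
  by_cases h : T.Bi σ d
  · by_cases h2 : T.Mi σ d
    · rw [T.src_st_mi h2, h2.2]
    · rw [T.src_st_nmi h h2]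
  · rw [T.st_not h]

theorem col_tgt_st (σ : V → Bool) (d : D) : σ (T.tgt (T.st σ d)) = σ (T.tgt d) := by
  by_cases h : T.Bi σ d
  · by_cases h2 : T.Mi σ d
    · rw [T.tgt_st_mi h2]
    · rw [T.tgt_st_nmi h h2, T.nmi_apex h h2]
  · rw [T.st_not h]

theorem bi_st {σ : V → Bool} {d : D} : T.Bi σ (T.st σ d) ↔ T.Bi σ d := by
  unfold Bi; rw [T.col_src_st σ, T.col_tgt_st σ]

theorem bi_rev {σ : V → Bool} {d : D} : T.Bi σ (T.rev d) ↔ T.Bi σ d := by
  unfold Bi; rw [T.src_rev, T.tgt_rev]; exact ne_comm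

/-- Reversibility of the strand map. -/
theorem st_rev_st (σ : V → Bool) (d : D) : T.st σ (T.rev (T.st σ d)) = T.rev d := by
  by_cases h : T.Bi σ d
  · by_cases h2 : T.Mi σ d
    · have e1 : T.rev (T.st σ d) = T.nxt d := by rw [T.st_mi h2, T.rev_rev]
      rw [e1]
      have hb : T.Bi σ (T.nxt d) := by
        rw [← e1, bi_rev, bi_st]; exact h
      have hn : ¬ T.Mi σ (T.nxt d) := by
        rintro ⟨h3, h4⟩
        rw [apex_nxt, src_nxt'] at h4
        exact h h4
      rw [T.st_nmi hb hn, T.nxt3]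
    · have e1 : T.rev (T.st σ d) = T.nxt (T.nxt d) := by rw [T.st_nmi h h2, T.rev_rev]
      rw [e1]
      have hb : T.Bi σ (T.nxt (T.nxt d)) := by
        rw [← e1, bi_rev, bi_st]; exact h
      have hn : T.Mi σ (T.nxt (T.nxt d)) := by
        refine ⟨hb, ?_⟩
        rw [apex_nxt2, src_nxt2]
        exact (T.nmi_apex h h2).symm
      rw [T.st_mi hn, T.nxt3]
  · rw [T.st_not h]
    exact T.st_not (by rw [bi_rev]; exact h)

theorem st_injective (σ : V → Bool) : Injective (T.st σ) := by
  intro d e h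
  have h1 := T.st_rev_st σ d
  have h2 := T.st_rev_st σ e
  rw [h, h2] at h1
  have := congrArg T.rev h1
  rw [T.rev_rev, T.rev_rev] at this
  exact this.symm

theorem bi_iter {σ : V → Bool} {d : D} (n : ℕ) : T.Bi σ ((T.st σ)^[n] d) ↔ T.Bi σ d := by
  induction n with
  | zero => simp
  | succ n ih => rw [iterate_succ', comp_apply, bi_st, ih]

theorem col_src_iter (σ : V → Bool) (d : D) (n : ℕ) :
    σ (T.src ((T.st σ)^[n] d)) = σ (T.src d) := by
  induction n with
  | zero => simp
  | succ n ih => rw [iterate_succ', comp_apply, T.col_src_st σ, ih]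

theorem col_tgt_iter (σ : V → Bool) (d : D) (n : ℕ) :
    σ (T.tgt ((T.st σ)^[n] d)) = σ (T.tgt d) := by
  induction n with
  | zero => simp
  | succ n ih => rw [iterate_succ', comp_apply, T.col_tgt_st σ, ih]

/-- Walks. -/
inductive Walk : V → V → List D → Prop
  | nil (v : V) : Walk v v []
  | cons (d : D) (w : V) (l : List D) : Walk (T.tgt d) w l → Walk (T.src d) w (d :: l)

theorem Walk.append {T : Tri V D} {u v w : V} {l m : List D} (h : T.Walk u v l)
    (h2 : T.Walk v w m) : T.Walk u w (l ++ m) := by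
  induction h with
  | nil v => simpa using h2
  | cons d w' l _ ih => exact Walk.cons d _ _ (ih h2)

theorem Walk.cons' {T : Tri V D} {u w : V} {l : List D} (d : D) (hu : T.src d = u)
    (h : T.Walk (T.tgt d) w l) : T.Walk u w (d :: l) := by
  subst hu; exact Walk.cons d w l h

theorem Walk.single {T : Tri V D} (d : D) : T.Walk (T.src d) (T.tgt d) [d] :=
  Walk.cons d _ _ (Walk.nil _)

theorem Walk.reverse {T : Tri V D} {u v : V} {l : List D} (h : T.Walk u v l) :
    T.Walk v u (l.map T.rev).reverse := by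
  induction h with
  | nil v => exact Walk.nil v
  | cons d w l _ ih =>
    rw [List.map_cons, List.reverse_cons]
    refine ih.append ?_
    have := Walk.single (T := T) (T.rev d)
    rw [T.tgt_rev, T.src_rev] at this
    exact this

open Classical in
/-- Number of times a list of darts uses the edge of `d`, mod 2. -/
noncomputable def mu (l : List D) (d : D) : ZMod 2 := (l.count d : ZMod 2) + (l.count (T.rev d) : ZMod 2)

/-- Mod 2 planarity: every closed walk bounds (nothing is asked at loops of visited vertices). -/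
def Planar : Prop := ∀ (v : V) (l : List D), T.Walk v v l →
  ∃ N : D → ZMod 2, (∀ d, N (T.nxt d) = N d) ∧
    ∀ d, (T.src d ≠ T.tgt d ∨ ∀ e ∈ l, T.src e ≠ T.src d) → N d + N (T.rev d) = T.mu l d

theorem mu_nil (d : D) : T.mu [] d = 0 := by simp [mu]

theorem mu_append (l m : List D) (d : D) : T.mu (l ++ m) d = T.mu l d + T.mu m d := by
  simp only [mu, List.count_append, Nat.cast_add]; ring

theorem mu_rev (l : List D) (d : D) : T.mu l (T.rev d) = T.mu l d := by
  simp only [mu, T.rev_rev]; ring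

theorem mu_zero {l : List D} {d : D} (h1 : d ∉ l) (h2 : T.rev d ∉ l) : T.mu l d = 0 := by
  classical
  simp [mu, List.count_eq_zero_of_not_mem h1, List.count_eq_zero_of_not_mem h2]

open Classical in
theorem mu_cons (e : D) (l : List D) (d : D) :
    T.mu (e :: l) d = (if e = d then 1 else 0) + (if e = T.rev d then 1 else 0) + T.mu l d := by
  have h1 : ∀ x : D, ((e :: l).count x : ZMod 2) = (if e = x then 1 else 0) + (l.count x : ZMod 2) := by
    intro x
    by_cases h : e = x
    · subst h; simp [add_comm]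
    · rw [List.count_cons_of_ne h]; simp [h]
  unfold mu
  rw [h1, h1]; ring

theorem zmod2_add_eq_zero {a b : ZMod 2} (h : a + b = 0) : b = a := by
  revert a b; decide

theorem zmod2_add_eq_one {a b : ZMod 2} (h : a + b = 1) : a ≠ b := by
  revert a b; decide

theorem Walk.casesOn' {T : Tri V D} {u v : V} {l : List D} (h : T.Walk u v l) :
    (l = [] ∧ u = v) ∨ ∃ d l', l = d :: l' ∧ T.src d = u ∧ T.Walk (T.tgt d) v l' := by
  cases h with
  | nil => left; exact ⟨rfl, rfl⟩
  | cons d _ l' h => right; exact ⟨d, l', rfl, rfl, h⟩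

/-- In a walk from `u` to `v`, the target of each dart is a source, or is `v`. -/
theorem Walk.tgt_mem {T : Tri V D} {u v : V} {l : List D} (h : T.Walk u v l) :
    ∀ g ∈ l, T.tgt g = v ∨ ∃ e ∈ l, T.src e = T.tgt g := by
  induction h with
  | nil v => intro g hg; simp at hg
  | cons d w l hw ih =>
    intro g hg
    rcases List.mem_cons.1 hg with rfl | hg
    · rcases hw.casesOn' with ⟨_, h2⟩ | ⟨e, l', h2, h3, _⟩
      · left; exact h2
      · right; exact ⟨e, by simp [h2], h3⟩
    · rcases ih g hg with h | ⟨e, he, h⟩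
      · left; exact h
      · right; exact ⟨e, List.mem_cons_of_mem _ he, h⟩

theorem Walk.src_head {T : Tri V D} {u v : V} {l : List D} (h : T.Walk u v l) (hl : l ≠ []) :
    ∃ e ∈ l, T.src e = u := by
  cases h with
  | nil => exact absurd rfl hl
  | cons d _ l _ => exact ⟨d, by simp, rfl⟩

theorem Walk.tgt_mem_closed {T : Tri V D} {u : V} {l : List D} (h : T.Walk u u l) :
    ∀ g ∈ l, ∃ e ∈ l, T.src e = T.tgt g := by
  intro g hg
  rcases h.tgt_mem g hg with h1 | h1
  · obtain ⟨e, he, h2⟩ := h.src_head (List.ne_nil_of_mem hg)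
    exact ⟨e, he, by rw [h2, h1]⟩
  · exact h1

/-- A face potential of a closed walk is constant around an unvisited vertex. -/
theorem const_at {u : V} {l : List D} (hw : T.Walk u u l) {N : D → ZMod 2}
    (h1 : ∀ d, N (T.nxt d) = N d)
    (h2 : ∀ d, (T.src d ≠ T.tgt d ∨ ∀ e ∈ l, T.src e ≠ T.src d) → N d + N (T.rev d) = T.mu l d)
    {d e : D} (hx : T.src d = T.src e) (hn : ∀ f ∈ l, T.src f ≠ T.src d) : N d = N e := by
  have key : ∀ f g : D, Relation.EqvGen
      (fun f g => g = T.rev (T.nxt (T.nxt f)) ∨ (T.src f = T.src (T.rev f) ∧ g = T.rev f)) f g →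
      (T.src f = T.src g ∧ (T.src f = T.src d → N f = N g)) := by
    intro f g hfg
    induction hfg with
    | rel f g h =>
      rcases h with rfl | ⟨h, rfl⟩
      · refine ⟨by rw [src_rev, tgt_nxt2], fun hf => ?_⟩
        have hm : T.mu l (T.nxt (T.nxt f)) = 0 := by
          apply mu_zero
          · intro hmem
            obtain ⟨e', he', h'⟩ := hw.tgt_mem_closed _ hmem
            rw [tgt_nxt2, hf] at h'
            exact hn e' he' h'
          · intro hmem
            apply hn _ hmem
            rw [src_rev, tgt_nxt2, hf]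
        have h3 := h2 (T.nxt (T.nxt f)) (by
          by_cases hh : T.src (T.nxt (T.nxt f)) = T.tgt (T.nxt (T.nxt f))
          · right
            intro e' he'
            rw [hh, tgt_nxt2, hf]
            exact hn e' he'
          · left; exact hh)
        rw [hm, h1, h1] at h3
        exact (zmod2_add_eq_zero h3).symm
      · refine ⟨h, fun hf => ?_⟩
        have hm : T.mu l f = 0 := by
          apply mu_zero
          · intro hmem; exact hn f hmem hf
          · intro hmem; exact hn _ hmem (by rw [← h, hf])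
        have h3 := h2 f (Or.inr (by intro e' he'; rw [hf]; exact hn e' he'))
        rw [hm] at h3
        exact (zmod2_add_eq_zero h3).symm
    | refl f => exact ⟨rfl, fun _ => rfl⟩
    | symm f g _ ih => exact ⟨ih.1.symm, fun hf => (ih.2 (by rw [ih.1, hf])).symm⟩
    | trans f g k _ _ ih1 ih2 =>
      refine ⟨ih1.1.trans ih2.1, fun hf => (ih1.2 hf).trans (ih2.2 (by rw [← ih1.1, hf]))⟩
  exact (key d e (T.link d e hx)).2 rfl

end Tri

end Vale.Agent.P148.R2.H258
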