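import Vale.Agent.P148.R2.H258.A1

namespace Vale.Agent.P148.R2.H258

open Function

namespace Tri

variable {V D : Type*} (T : Tri V D)

open Classical in
/-- Left hugging walk. -/
noncomputable def lw (σ : V → Bool) (d : D) : ℕ → List D
  | 0 => []
  | n + 1 => lw σ d n ++ (if T.Mi σ ((T.st σ)^[n] d) then
      [T.rev (T.nxt (T.nxt ((T.st σ)^[n] d)))] else [])

open Classical in
/-- Right hugging walk. -/
noncomputable def rw' (σ : V → Bool) (d : D) : ℕ → List D
  | 0 => []
  | n + 1 => rw' σ d n ++ (if T.Mi σ ((T.st σ)^[n] d) then [] else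
      [T.nxt ((T.st σ)^[n] d)])

theorem lw_walk {σ : V → Bool} {d : D} (h : T.Bi σ d) (n : ℕ) :
    T.Walk (T.src d) (T.src ((T.st σ)^[n] d)) (T.lw σ d n) := by
  induction n with
  | zero => exact Walk.nil _
  | succ n ih =>
    have hb : T.Bi σ ((T.st σ)^[n] d) := (T.bi_iter n).2 h
    rw [iterate_succ', comp_apply]
    by_cases hm : T.Mi σ ((T.st σ)^[n] d)
    · have : T.lw σ d (n + 1) = T.lw σ d n ++ [T.rev (T.nxt (T.nxt ((T.st σ)^[n] d)))] := by
        simp [lw, hm]
      rw [this, T.src_st_mi hm]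
      refine ih.append ?_
      have hh := Walk.single (T := T) (T.rev (T.nxt (T.nxt ((T.st σ)^[n] d))))
      rw [T.src_rev, T.tgt_nxt2, T.tgt_rev] at hh
      exact hh
    · have : T.lw σ d (n + 1) = T.lw σ d n := by
        simp [lw, hm]
      rw [this, T.src_st_nmi hb hm]
      exact ih

theorem rw_walk {σ : V → Bool} {d : D} (h : T.Bi σ d) (n : ℕ) :
    T.Walk (T.tgt d) (T.tgt ((T.st σ)^[n] d)) (T.rw' σ d n) := by
  induction n with
  | zero => exact Walk.nil _
  | succ n ih =>
    have hb : T.Bi σ ((T.st σ)^[n] d) := (T.bi_iter n).2 h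
    rw [iterate_succ', comp_apply]
    by_cases hm : T.Mi σ ((T.st σ)^[n] d)
    · have : T.rw' σ d (n + 1) = T.rw' σ d n := by
        simp [rw', hm]
      rw [this, T.tgt_st_mi hm]
      exact ih
    · have : T.rw' σ d (n + 1) = T.rw' σ d n ++ [T.nxt ((T.st σ)^[n] d)] := by
        simp [rw', hm]
      rw [this, T.tgt_st_nmi hb hm]
      refine ih.append ?_
      have hh := Walk.single (T := T) (T.nxt ((T.st σ)^[n] d))
      rw [T.src_nxt', T.tgt_nxt] at hh
      exact hh

theorem lw_mem {σ : V → Bool} {d : D} {n : ℕ} {g : D} (hg : g ∈ T.lw σ d n) :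
    ∃ i < n, T.src g = T.src ((T.st σ)^[i] d) ∧ T.tgt g = T.src ((T.st σ)^[i + 1] d) := by
  induction n with
  | zero => simp [lw] at hg
  | succ n ih =>
    by_cases hm : T.Mi σ ((T.st σ)^[n] d)
    · have : T.lw σ d (n + 1) = T.lw σ d n ++ [T.rev (T.nxt (T.nxt ((T.st σ)^[n] d)))] := by
        simp [lw, hm]
      rw [this, List.mem_append] at hg
      rcases hg with hg | hg
      · obtain ⟨i, hi, h⟩ := ih hg
        exact ⟨i, by omega, h⟩
      · rw [List.mem_singleton] at hg
        subst hg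
        refine ⟨n, by omega, ?_, ?_⟩
        · rw [T.src_rev, T.tgt_nxt2]
        · rw [T.tgt_rev, iterate_succ', comp_apply, T.src_st_mi hm]; rfl
    · have : T.lw σ d (n + 1) = T.lw σ d n := by
        simp [lw, hm]
      rw [this] at hg
      obtain ⟨i, hi, h⟩ := ih hg
      exact ⟨i, by omega, h⟩

theorem rw_mem {σ : V → Bool} {d : D} (hb : T.Bi σ d) {n : ℕ} {g : D} (hg : g ∈ T.rw' σ d n) :
    ∃ i < n, T.src g = T.tgt ((T.st σ)^[i] d) ∧ T.tgt g = T.tgt ((T.st σ)^[i + 1] d) := by
  induction n with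
  | zero => simp [rw'] at hg
  | succ n ih =>
    have hb' : T.Bi σ ((T.st σ)^[n] d) := (T.bi_iter n).2 hb
    by_cases hm : T.Mi σ ((T.st σ)^[n] d)
    · have : T.rw' σ d (n + 1) = T.rw' σ d n := by
        simp [rw', hm]
      rw [this] at hg
      obtain ⟨i, hi, h⟩ := ih hg
      exact ⟨i, by omega, h⟩
    · have : T.rw' σ d (n + 1) = T.rw' σ d n ++ [T.nxt ((T.st σ)^[n] d)] := by
        simp [rw', hm]
      rw [this, List.mem_append] at hg
      rcases hg with hg | hg
      · obtain ⟨i, hi, h⟩ := ih hg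
        exact ⟨i, by omega, h⟩
      · rw [List.mem_singleton] at hg
        subst hg
        refine ⟨n, by omega, ?_, ?_⟩
        · rw [T.src_nxt']
        · rw [T.tgt_nxt, iterate_succ', comp_apply, T.tgt_st_nmi hb' hm]

/-- Vertices hugged by the strand from the face of `d` to the face of `S^n d`. -/
def HS (σ : V → Bool) (d : D) (n : ℕ) : Set V :=
  {v | ∃ i, 1 ≤ i ∧ i ≤ n ∧ (T.src ((T.st σ)^[i] d) = v ∨ T.tgt ((T.st σ)^[i] d) = v)}

/-- The third vertices are joined off the strand. -/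
def Conn (σ : V → Bool) (d : D) (n : ℕ) : Prop :=
  T.src d ∉ T.HS σ d n ∧ T.apex ((T.st σ)^[n] d) ∉ T.HS σ d n ∧
  ∃ l, T.Walk (T.src d) (T.apex ((T.st σ)^[n] d)) l ∧
    ∀ g ∈ l, σ (T.src g) = σ (T.src d) ∧ σ (T.tgt g) = σ (T.src d) ∧
      T.src g ∉ T.HS σ d n ∧ T.tgt g ∉ T.HS σ d n

/-- Disjointness of the two hugging walks. -/
def Disj (σ : V → Bool) (d : D) (n : ℕ) : Prop :=
  ∀ i j, 1 ≤ i → i ≤ n → n < j → j ≤ minimalPeriod (T.st σ) d →
    T.src ((T.st σ)^[i] d) ≠ T.src ((T.st σ)^[j] d)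

theorem face_st {N : D → ZMod 2} (h1 : ∀ d, N (T.nxt d) = N d) {σ : V → Bool} {f : D}
    (hb : T.Bi σ f) : N (T.rev (T.st σ f)) = N f := by
  by_cases hm : T.Mi σ f
  · rw [T.st_mi hm, T.rev_rev, h1]
  · rw [T.st_nmi hb hm, T.rev_rev, h1, h1]

theorem conn_of_disj {σ : V → Bool} {d : D} {n : ℕ} (hd : T.Mi σ d)
    (he : T.Mi σ ((T.st σ)^[n] d)) (hn : n < minimalPeriod (T.st σ) d)
    (h : T.Disj σ d n) : T.Conn σ d n := by
  set L := minimalPeriod (T.st σ) d with hL
  have hLd : (T.st σ)^[L] d = d := iterate_minimalPeriod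
  have hHS : ∀ j, n < j → j ≤ L → T.src ((T.st σ)^[j] d) ∉ T.HS σ d n := by
    rintro j hj1 hj2 ⟨i, hi1, hi2, hi | hi⟩
    · exact h i j hi1 hi2 hj1 hj2 hi
    · have h1 := T.col_src_iter σ d j
      have h2 := T.col_tgt_iter σ d i
      rw [hi, h1] at h2
      exact hd.1 h2
  have hap : T.apex ((T.st σ)^[n] d) = T.src ((T.st σ)^[n + 1] d) := by
    rw [iterate_succ', comp_apply, T.src_st_mi he]
  refine ⟨?_, ?_, ?_⟩
  · have := hHS L hn le_rfl
    rwa [hLd] at this
  · rw [hap]; exact hHS (n + 1) (by omega) (by omega)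
  · have hb : T.Bi σ ((T.st σ)^[n + 1] d) := (T.bi_iter _).2 hd.bi
    have hw := T.lw_walk hb (L - (n + 1))
    have hsh : ∀ i, (T.st σ)^[i] ((T.st σ)^[n + 1] d) = (T.st σ)^[i + (n + 1)] d := by
      intro i; exact (iterate_add_apply _ i (n + 1) d).symm
    rw [hsh, Nat.sub_add_cancel (by omega), hLd] at hw
    refine ⟨_, hap ▸ hw.reverse, ?_⟩
    intro g hg
    rw [List.mem_reverse, List.mem_map] at hg
    obtain ⟨g', hg', rfl⟩ := hg
    obtain ⟨i, hi, h1, h2⟩ := T.lw_mem hg'
    rw [hsh] at h1 h2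
    rw [T.src_rev, T.tgt_rev, h1, h2]
    refine ⟨T.col_src_iter σ d _, T.col_src_iter σ d _, ?_, ?_⟩
    · exact hHS _ (by omega) (by omega)
    · exact hHS _ (by omega) (by omega)

theorem disj_of_conn (hP : T.Planar) {σ : V → Bool} {d : D} {n : ℕ} (hd : T.Mi σ d)
    (he : T.Mi σ ((T.st σ)^[n] d)) (hn1 : 1 ≤ n) (hn : n < minimalPeriod (T.st σ) d)
    (h : T.Conn σ d n) : T.Disj σ d n := by
  obtain ⟨hs, ha, l, hl, hlm⟩ := h
  set L := minimalPeriod (T.st σ) d with hL
  have hLd : (T.st σ)^[L] d = d := iterate_minimalPeriod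
  intro i j hi1 hi2 hj1 hj2 hx
  set e := (T.st σ)^[n] d with hedef
  have hSe : (T.st σ)^[n + 1] d = T.st σ e := by rw [iterate_succ', comp_apply]
  have hxH : T.src ((T.st σ)^[i] d) ∈ T.HS σ d n := ⟨i, hi1, hi2, Or.inl rfl⟩
  have hjL : j ≠ L := by
    rintro rfl
    rw [hLd] at hx
    rw [hx] at hxH
    exact hs hxH
  have hjn : j ≠ n + 1 := by
    rintro rfl
    rw [hSe, T.src_st_mi he] at hx
    rw [hx] at hxH
    exact ha hxH
  -- the closed walk
  have hbSd : T.Bi σ (T.st σ d) := T.bi_st.2 hd.bi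
  have hw2 := (T.rw_walk hbSd (n - 1)).reverse
  have hsh1 : ∀ k, (T.st σ)^[k] (T.st σ d) = (T.st σ)^[k + 1] d := by
    intro k; rw [iterate_succ_apply]
  rw [hsh1, Nat.sub_add_cancel hn1, T.tgt_st_mi hd] at hw2
  have hw1 : T.Walk (T.apex e) (T.tgt e) [T.st σ e] := by
    have := Walk.single (T := T) (T.st σ e)
    rwa [T.src_st_mi he, T.tgt_st_mi he] at this
  have hw3 : T.Walk (T.tgt d) (T.src d) [T.rev d] := by
    have := Walk.single (T := T) (T.rev d)
    rwa [T.src_rev, T.tgt_rev] at this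
  set r := ((T.rw' σ (T.st σ d) (n - 1)).map T.rev).reverse with hr
  have hG : T.Walk (T.src d) (T.src d) (l ++ ([T.st σ e] ++ (r ++ [T.rev d]))) :=
    hl.append (hw1.append (hw2.append hw3))
  have hrm : ∀ g ∈ r, σ (T.src g) = σ (T.tgt d) ∧ σ (T.tgt g) = σ (T.tgt d) := by
    intro g hg
    rw [hr, List.mem_reverse, List.mem_map] at hg
    obtain ⟨g', hg', rfl⟩ := hg
    obtain ⟨k, _, h1, h2⟩ := T.rw_mem hbSd hg'
    rw [hsh1] at h1 h2
    rw [T.src_rev, T.tgt_rev, h1, h2]
    exact ⟨T.col_tgt_iter σ d _, T.col_tgt_iter σ d _⟩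
  obtain ⟨N, hN1, hN2⟩ := hP _ _ hG
  set Γ := l ++ ([T.st σ e] ++ (r ++ [T.rev d])) with hΓ
  -- membership of bichromatic darts
  have hmem : ∀ k, 1 ≤ k → k < L → k ≠ n + 1 →
      (T.st σ)^[k] d ∉ Γ ∧ T.rev ((T.st σ)^[k] d) ∉ Γ := by
    intro k hk1 hk2 hk3
    have c1 := T.col_src_iter σ d k
    have c2 := T.col_tgt_iter σ d k
    have hne : ∀ m, 1 ≤ m → m < L → m ≠ k → (T.st σ)^[k] d ≠ (T.st σ)^[m] d := by
      intro m _ hm2 hmk hh
      exact hmk ((iterate_eq_iterate_iff_of_lt_minimalPeriod hk2 hm2).1 hh).symm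
    have hne0 : (T.st σ)^[k] d ≠ d := by
      intro hh
      have := (iterate_eq_iterate_iff_of_lt_minimalPeriod (f := T.st σ) (x := d) hk2
        (show 0 < L by omega)).1 (by simpa using hh)
      omega
    have hcol : ∀ f : D, σ (T.src f) = σ (T.src d) → T.rev ((T.st σ)^[k] d) ≠ f := by
      intro f hf hh
      rw [← hh, T.src_rev, c2] at hf
      exact hd.1 hf.symm
    constructor
    · intro hm
      simp only [hΓ, List.mem_append, List.mem_singleton] at hm
      rcases hm with hm | hm | hm | hm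
      · have := hlm _ hm
        rw [c1, c2] at this
        exact hd.1 this.2.1.symm
      · rw [← hSe] at hm
        exact hne (n + 1) (by omega) (by omega) (by omega) hm
      · have := hrm _ hm
        rw [c1] at this
        exact hd.1 this.1
      · have := congrArg (fun f => σ (T.src f)) hm
        simp only [T.src_rev] at this
        rw [c1] at this
        exact hd.1 this
    · intro hm
      simp only [hΓ, List.mem_append, List.mem_singleton] at hm
      rcases hm with hm | hm | hm | hm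
      · have := hlm _ hm
        rw [T.src_rev, T.tgt_rev, c1, c2] at this
        exact hd.1 this.1.symm
      · refine hcol (T.st σ e) ?_ hm
        rw [← hSe]; exact T.col_src_iter σ d _
      · have := hrm _ hm
        rw [T.src_rev, T.tgt_rev, c1, c2] at this
        exact hd.1 this.2
      · have := congrArg T.rev hm
        rw [T.rev_rev, T.rev_rev] at this
        exact hne0 this
  have hmu0 : ∀ k, 1 ≤ k → k < L → k ≠ n + 1 → T.mu Γ ((T.st σ)^[k] d) = 0 :=
    fun k h1 h2 h3 => T.mu_zero (hmem k h1 h2 h3).1 (hmem k h1 h2 h3).2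
  have hmu1 : n + 1 < L → T.mu Γ ((T.st σ)^[n + 1] d) = 1 := by
    intro hlt
    have c1 := T.col_src_iter σ d (n + 1)
    have c2 := T.col_tgt_iter σ d (n + 1)
    rw [hΓ, T.mu_append, T.mu_append, T.mu_append]
    have z1 : T.mu l ((T.st σ)^[n + 1] d) = 0 := by
      apply T.mu_zero
      · intro hm
        have := hlm _ hm
        rw [c1, c2] at this
        exact hd.1 this.2.1.symm
      · intro hm
        have := hlm _ hm
        rw [T.src_rev, T.tgt_rev, c1, c2] at this
        exact hd.1 this.1.symm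
    have z2 : T.mu r ((T.st σ)^[n + 1] d) = 0 := by
      apply T.mu_zero
      · intro hm
        have := hrm _ hm
        rw [c1] at this
        exact hd.1 this.1
      · intro hm
        have := hrm _ hm
        rw [T.src_rev, T.tgt_rev, c1, c2] at this
        exact hd.1 this.2
    have z3 : T.mu [T.rev d] ((T.st σ)^[n + 1] d) = 0 := by
      apply T.mu_zero
      · intro hm
        rw [List.mem_singleton] at hm
        have := congrArg (fun f => σ (T.src f)) hm
        simp only [T.src_rev] at this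
        rw [c1] at this
        exact hd.1 this
      · intro hm
        rw [List.mem_singleton] at hm
        have := congrArg T.rev hm
        rw [T.rev_rev, T.rev_rev] at this
        have := (iterate_eq_iterate_iff_of_lt_minimalPeriod (f := T.st σ) (x := d) hlt
          (show 0 < L by omega)).1 (by simpa using this)
        omega
    have z4 : T.mu [T.st σ e] ((T.st σ)^[n + 1] d) = 1 := by
      rw [T.mu_cons, T.mu_nil, hSe]
      have : T.st σ e ≠ T.rev (T.st σ e) := by
        intro hh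
        have h3 := congrArg (fun f => σ (T.src f)) hh
        simp only [T.src_rev] at h3
        rw [← hSe, c1, c2] at h3
        exact hd.1 h3
      simp [this]
    rw [z1, z2, z3, z4]; simp
  have hstep : ∀ k, N ((T.st σ)^[k + 1] d) = N ((T.st σ)^[k] d) + T.mu Γ ((T.st σ)^[k + 1] d) := by
    intro k
    have hbk : T.Bi σ ((T.st σ)^[k] d) := (T.bi_iter k).2 hd.bi
    have hbk1 : T.Bi σ ((T.st σ)^[k + 1] d) := (T.bi_iter (k + 1)).2 hd.bi
    have h3 := hN2 ((T.st σ)^[k + 1] d) (Or.inl (fun hh => hbk1 (by rw [hh])))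
    have h4 : N (T.rev ((T.st σ)^[k + 1] d)) = N ((T.st σ)^[k] d) := by
      rw [iterate_succ', comp_apply]; exact T.face_st hN1 hbk
    rw [h4] at h3
    rw [← h3]
    generalize N ((T.st σ)^[k + 1] d) = a
    generalize N ((T.st σ)^[k] d) = b
    revert a b; decide
  have hA : ∀ k, k ≤ n → N ((T.st σ)^[k] d) = N d := by
    intro k
    induction k with
    | zero => intro _; rfl
    | succ k ih =>
      intro hk
      rw [hstep k, ih (by omega), hmu0 (k + 1) (by omega) (by omega) (by omega), add_zero]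
  have hnL : n + 1 < L := by omega
  have hB : ∀ k, n + 1 + k < L → N ((T.st σ)^[n + 1 + k] d) = N d + 1 := by
    intro k
    induction k with
    | zero => intro _; rw [add_zero, hstep n, hA n le_rfl, hmu1 hnL]
    | succ k ih =>
      intro hk
      have := hstep (n + 1 + k)
      rw [show n + 1 + (k + 1) = n + 1 + k + 1 by ring, this, ih (by omega),
        hmu0 (n + 1 + k + 1) (by omega) (by omega) (by omega), add_zero]
  have e1 := hA i hi2
  have e2 := hB (j - (n + 1)) (by omega)
  rw [show n + 1 + (j - (n + 1)) = j by omega] at e2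
  have hnv : ∀ f ∈ Γ, T.src f ≠ T.src ((T.st σ)^[i] d) := by
    intro f hf hh
    simp only [hΓ, List.mem_append, List.mem_singleton] at hf
    rcases hf with hf | hf | hf | hf
    · exact (hlm _ hf).2.2.1 (hh ▸ hxH)
    · rw [hf, T.src_st_mi he] at hh
      exact ha (hh ▸ hxH)
    · have := (hrm _ hf).1
      rw [hh, T.col_src_iter σ d] at this
      exact hd.1 this
    · rw [hf, T.src_rev] at hh
      have := T.col_src_iter σ d i
      rw [← hh] at this
      exact hd.1 this.symm
  have e3 := T.const_at hG hN1 hN2 hx hnv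
  rw [e1, e2] at e3
  revert e3
  generalize N d = a
  revert a; decide

end Tri

end Vale.Agent.P148.R2.H258
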