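import Vale.Agent.P148.R2.H258.A2

namespace Vale.Agent.P148.R2.H258

open Function

namespace Tri

variable {V D : Type*} (T : Tri V D)

/-- Same class: same strand, and the two hugging walks do not meet. -/
def Rel (σ : V → Bool) (d e : D) : Prop :=
  T.Mi σ d ∧ T.Mi σ e ∧ ∃ n, n < minimalPeriod (T.st σ) d ∧ (T.st σ)^[n] d = e ∧ T.Disj σ d n

theorem pos_period [Finite D] (σ : V → Bool) (d : D) : 0 < minimalPeriod (T.st σ) d :=
  minimalPeriod_pos_of_mem_periodicPts (Function.Injective.mem_periodicPts (T.st_injective σ) d)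

theorem iter_sub (σ : V → Bool) (d : D) {k : ℕ} (hk : minimalPeriod (T.st σ) d ≤ k) :
    (T.st σ)^[k] d = (T.st σ)^[k - minimalPeriod (T.st σ) d] d := by
  conv_lhs => rw [← Nat.sub_add_cancel hk, iterate_add_apply, iterate_minimalPeriod]

theorem period_iter [Finite D] (σ : V → Bool) (d : D) (n : ℕ) :
    minimalPeriod (T.st σ) ((T.st σ)^[n] d) = minimalPeriod (T.st σ) d :=
  minimalPeriod_apply_iterate (Function.Injective.mem_periodicPts (T.st_injective σ) d) n

theorem rel_refl [Finite D] {σ : V → Bool} {d : D} (h : T.Mi σ d) : T.Rel σ d d :=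
  ⟨h, h, 0, T.pos_period σ d, rfl, by intro i j h1 h2; omega⟩

theorem rel_symm [Finite D] {σ : V → Bool} {d e : D} (h : T.Rel σ d e) : T.Rel σ e d := by
  obtain ⟨hd, he, n, hn, rfl, hdis⟩ := h
  rcases Nat.eq_zero_or_pos n with rfl | hn0
  · exact T.rel_refl hd
  refine ⟨he, hd, minimalPeriod (T.st σ) d - n, ?_, ?_, ?_⟩
  · rw [T.period_iter]; omega
  · rw [← iterate_add_apply, Nat.sub_add_cancel hn.le, iterate_minimalPeriod]
  · intro i j h1 h2 h3 h4
    rw [T.period_iter] at h4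
    rw [← iterate_add_apply, ← iterate_add_apply, T.iter_sub σ d (k := j + n) (by omega)]
    exact (hdis (j + n - minimalPeriod (T.st σ) d) (i + n) (by omega) (by omega) (by omega)
      (by omega)).symm

theorem rel_trans [Finite D] {σ : V → Bool} {d e f : D} (h : T.Rel σ d e) (h' : T.Rel σ e f) :
    T.Rel σ d f := by
  obtain ⟨hd, -, n, hn, rfl, hdis⟩ := h
  obtain ⟨-, hf, m, hm, rfl, hdis'⟩ := h'
  set L := minimalPeriod (T.st σ) d with hL
  rw [T.period_iter, ← hL] at hm
  have key : ∀ i j, 1 ≤ i → i ≤ m → m < j → j ≤ L →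
      T.src ((T.st σ)^[i + n] d) ≠ T.src ((T.st σ)^[j + n] d) := by
    intro i j h1 h2 h3 h4
    have := hdis' i j h1 h2 h3 (by rw [T.period_iter]; exact h4)
    rwa [← iterate_add_apply, ← iterate_add_apply] at this
  rw [← iterate_add_apply] at hf ⊢
  by_cases hlt : m + n < L
  · refine ⟨hd, hf, m + n, hlt, rfl, ?_⟩
    intro i j h1 h2 h3 h4
    by_cases hi : i ≤ n
    · exact hdis i j h1 hi (by omega) h4
    · have := key (i - n) (j - n) (by omega) (by omega) (by omega) (by omega)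
      rwa [Nat.sub_add_cancel (by omega), Nat.sub_add_cancel (by omega)] at this
  · refine ⟨hd, hf, m + n - L, by omega, (T.iter_sub σ d (by omega)).symm, ?_⟩
    intro i j h1 h2 h3 h4
    by_cases hj : j ≤ n
    · have := key (i + L - n) (j + L - n) (by omega) (by omega) (by omega) (by omega)
      rw [Nat.sub_add_cancel (by omega), Nat.sub_add_cancel (by omega), iterate_add_apply,
        iterate_add_apply, hL, iterate_minimalPeriod] at this
      exact this
    · exact hdis i j h1 (by omega) (by omega) h4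

/-- At most one minority dart in a face. -/
theorem mi_face1 {σ : V → Bool} {d : D} (h : T.Mi σ d) : ¬ T.Mi σ (T.nxt d) := by
  rintro ⟨h3, h4⟩
  rw [apex_nxt, src_nxt'] at h4
  exact h.1 h4

theorem mi_face2 {σ : V → Bool} {d : D} (h : T.Mi σ d) : ¬ T.Mi σ (T.nxt (T.nxt d)) := by
  rintro ⟨h3, h4⟩
  rw [apex_nxt2, src_nxt2] at h4
  rw [h.2] at h4
  exact h.1 h4.symm

open Classical in
/-- Flip all colours off `H`. -/
noncomputable def flipOff (H : Set V) (σ : V → Bool) : V → Bool := fun v => if v ∈ H then σ v else !σ v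

theorem flipOff_mem {H : Set V} {σ : V → Bool} {v : V} (h : v ∈ H) : flipOff H σ v = σ v := by
  simp [flipOff, h]

theorem flipOff_not_mem {H : Set V} {σ : V → Bool} {v : V} (h : v ∉ H) : flipOff H σ v = !σ v := by
  simp [flipOff, h]

theorem flipOff_flipOff (H : Set V) (σ : V → Bool) : flipOff H (flipOff H σ) = σ := by
  funext v
  by_cases h : v ∈ H
  · rw [flipOff_mem h, flipOff_mem h]
  · rw [flipOff_not_mem h, flipOff_not_mem h, Bool.not_not]

theorem st_congr {σ σ' : V → Bool} {f : D} (h1 : σ' (T.src f) = σ (T.src f))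
    (h2 : σ' (T.tgt f) = σ (T.tgt f)) (h3 : σ' (T.apex f) = σ (T.apex f)) :
    T.st σ' f = T.st σ f := by
  unfold st; rw [h1, h2, h3]

theorem not_eq_of_ne {a b : Bool} (h : a ≠ b) : (!a) = b := by
  revert a b; decide

/-- Colour switching. -/
theorem switch [Finite D] (hP : T.Planar) {σ : V → Bool} {d : D} {n : ℕ} (hd : T.Mi σ d)
    (he : T.Mi σ ((T.st σ)^[n] d)) (hn1 : 1 ≤ n) (hn : n < minimalPeriod (T.st σ) d)
    (h : T.Disj σ d n) {e : D} (hee : (T.st σ)^[n] d = e) {σ' : V → Bool}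
    (hσ' : σ' = flipOff (T.HS σ d n) σ) :
    T.Mi σ' (T.nxt (T.nxt e)) ∧ T.Mi σ' (T.nxt d) ∧
    n < minimalPeriod (T.st σ') (T.nxt (T.nxt e)) ∧ (T.st σ')^[n] (T.nxt (T.nxt e)) = T.nxt d ∧
    T.HS σ' (T.nxt (T.nxt e)) n = T.HS σ d n ∧ T.Disj σ' (T.nxt (T.nxt e)) n := by
  obtain ⟨hs, ha, l, hl, hlm⟩ := T.conn_of_disj hd he hn h
  rw [hee] at he ha hl
  set H := T.HS σ d n with hH
  have hin : ∀ i, 1 ≤ i → i ≤ n → T.src ((T.st σ)^[i] d) ∈ H ∧ T.tgt ((T.st σ)^[i] d) ∈ H :=
    fun i h1 h2 => ⟨⟨i, h1, h2, Or.inl rfl⟩, ⟨i, h1, h2, Or.inr rfl⟩⟩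
  have hse : T.src e ∈ H := by rw [← hee]; exact (hin n hn1 le_rfl).1
  have hte : T.tgt e ∈ H := by rw [← hee]; exact (hin n hn1 le_rfl).2
  have htd : T.tgt d ∈ H := by
    have := (hin 1 le_rfl hn1).2
    rwa [iterate_one, T.tgt_st_mi hd] at this
  have had : T.apex d ∈ H := by
    have := (hin 1 le_rfl hn1).1
    rwa [iterate_one, T.src_st_mi hd] at this
  have hm1 : T.Mi σ' (T.nxt (T.nxt e)) := by
    constructor
    · rw [src_nxt2, tgt_nxt2, hσ', flipOff_not_mem ha, flipOff_mem hse, he.2]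
      cases σ (T.src e) <;> decide
    · rw [apex_nxt2, src_nxt2, hσ', flipOff_not_mem ha, flipOff_mem hte, he.2]
      exact (not_eq_of_ne he.1).symm
  have hm2 : T.Mi σ' (T.nxt d) := by
    constructor
    · rw [src_nxt', tgt_nxt, hσ', flipOff_mem htd, flipOff_mem had, hd.2]
      exact hd.1.symm
    · rw [apex_nxt, src_nxt', hσ', flipOff_not_mem hs, flipOff_mem htd]
      exact not_eq_of_ne hd.1
  have hit : ∀ k, k < n → (T.st σ')^[k + 1] (T.nxt (T.nxt e)) = T.rev ((T.st σ)^[n - k] d) := by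
    intro k
    induction k with
    | zero =>
      intro _
      rw [Nat.zero_add, iterate_one, T.st_mi hm1, T.nxt3, Nat.sub_zero, hee]
    | succ k ih =>
      intro hk
      rw [iterate_succ', comp_apply, ih (by omega)]
      obtain ⟨m, hm⟩ : ∃ m, n - k = m + 1 := ⟨n - k - 1, by omega⟩
      have hm' : n - (k + 1) = m := by omega
      rw [hm, hm', iterate_succ', comp_apply]
      have hb : T.Bi σ ((T.st σ)^[m] d) := (T.bi_iter m).2 hd.bi
      have hap : T.apex ((T.st σ)^[m] d) ∈ H := by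
        by_cases hmi : T.Mi σ ((T.st σ)^[m] d)
        · have := (hin (m + 1) (by omega) (by omega)).1
          rwa [iterate_succ', comp_apply, T.src_st_mi hmi] at this
        · have := (hin (m + 1) (by omega) (by omega)).2
          rwa [iterate_succ', comp_apply, T.tgt_st_nmi hb hmi] at this
      have hc : T.st σ' ((T.st σ)^[m] d) = T.st σ ((T.st σ)^[m] d) := by
        apply T.st_congr
        · rw [hσ', flipOff_mem (hin m (by omega) (by omega)).1]
        · rw [hσ', flipOff_mem (hin m (by omega) (by omega)).2]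
        · rw [hσ', flipOff_mem hap]
      rw [← hc, T.st_rev_st]
  have hend : (T.st σ')^[n] (T.nxt (T.nxt e)) = T.nxt d := by
    have := hit (n - 1) (by omega)
    rwa [Nat.sub_add_cancel hn1, show n - (n - 1) = 1 by omega, iterate_one, T.st_mi hd,
      T.rev_rev] at this
  have hHS : T.HS σ' (T.nxt (T.nxt e)) n = H := by
    ext v
    constructor
    · rintro ⟨i, h1, h2, h3⟩
      have := hit (i - 1) (by omega)
      rw [Nat.sub_add_cancel h1] at this
      rw [this, T.src_rev, T.tgt_rev] at h3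
      exact ⟨n - (i - 1), by omega, by omega, h3.symm⟩
    · rintro ⟨i, h1, h2, h3⟩
      refine ⟨n - i + 1, by omega, by omega, ?_⟩
      rw [hit (n - i) (by omega), show n - (n - i) = i by omega, T.src_rev, T.tgt_rev]
      exact h3.symm
  have hper : n < minimalPeriod (T.st σ') (T.nxt (T.nxt e)) := by
    by_contra hcon
    push Not at hcon
    have hpos := T.pos_period σ' (T.nxt (T.nxt e))
    have h1 := hit (minimalPeriod (T.st σ') (T.nxt (T.nxt e)) - 1) (by omega)
    rw [Nat.sub_add_cancel hpos, iterate_minimalPeriod] at h1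
    have h2 := congrArg T.src h1
    rw [src_nxt2, src_rev] at h2
    apply ha
    rw [h2]
    exact (hin _ (by omega) (by omega)).2
  refine ⟨hm1, hm2, hper, hend, hHS, ?_⟩
  apply T.disj_of_conn hP hm1 (by rw [hend]; exact hm2) hn1 hper
  refine ⟨?_, ?_, (l.map T.rev).reverse, ?_, ?_⟩
  · rw [hHS, src_nxt2]; exact ha
  · rw [hHS, hend, apex_nxt]; exact hs
  · rw [hend, apex_nxt, src_nxt2]; exact hl.reverse
  · intro g hg
    rw [List.mem_reverse, List.mem_map] at hg
    obtain ⟨g', hg', rfl⟩ := hg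
    obtain ⟨h1, h2, h3, h4⟩ := hlm g' hg'
    have hce : σ (T.src e) = σ (T.src d) := by rw [← hee]; exact T.col_src_iter σ d n
    rw [hHS, T.src_rev, T.tgt_rev, src_nxt2]
    refine ⟨?_, ?_, h4, h3⟩
    · rw [hσ', flipOff_not_mem h4, flipOff_not_mem ha, h2, he.2, hce]
    · rw [hσ', flipOff_not_mem h3, flipOff_not_mem ha, h1, he.2, hce]

/-- The number of colourings in which `d`, `e` are minority darts of the same class. -/
noncomputable def cnt (d e : D) : ℕ := Nat.card {σ : V → Bool // T.Rel σ d e}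

theorem cnt_le [Finite D] [Finite V] (hP : T.Planar) {d e : D} (hne : d ≠ e) :
    T.cnt d e ≤ T.cnt (T.nxt (T.nxt e)) (T.nxt d) := by
  classical
  have hn : ∀ σ : {σ : V → Bool // T.Rel σ d e}, ∃ n, 1 ≤ n ∧ n < minimalPeriod (T.st σ.1) d ∧
      (T.st σ.1)^[n] d = e ∧ T.Disj σ.1 d n := by
    rintro ⟨σ, hd, he, n, h1, h2, h3⟩
    refine ⟨n, ?_, h1, h2, h3⟩
    rcases Nat.eq_zero_or_pos n with rfl | h
    · exact absurd h2 hne
    · exact h
  choose n hn1 hn2 hn3 hn4 using hn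
  have hsw := fun σ : {σ : V → Bool // T.Rel σ d e} =>
    T.switch hP σ.2.1 (by rw [hn3 σ]; exact σ.2.2.1) (hn1 σ) (hn2 σ) (hn4 σ) (hn3 σ) rfl
  let Φ : {σ : V → Bool // T.Rel σ d e} → {σ : V → Bool // T.Rel σ (T.nxt (T.nxt e)) (T.nxt d)} :=
    fun σ => ⟨flipOff (T.HS σ.1 d (n σ)) σ.1, (hsw σ).1, (hsw σ).2.1, n σ, (hsw σ).2.2.1,
      (hsw σ).2.2.2.1, (hsw σ).2.2.2.2.2⟩
  apply Nat.card_le_card_of_injective Φ
  intro σ₁ σ₂ h12
  have h := congrArg Subtype.val h12
  simp only [Φ] at h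
  have a1 := hsw σ₁
  have a2 := hsw σ₂
  rw [← h] at a2
  have hnn : n σ₁ = n σ₂ :=
    (iterate_eq_iterate_iff_of_lt_minimalPeriod a1.2.2.1 a2.2.2.1).1
      (a1.2.2.2.1.trans a2.2.2.2.1.symm)
  have hHH : T.HS σ₁.1 d (n σ₁) = T.HS σ₂.1 d (n σ₂) := by
    rw [← a1.2.2.2.2.1, ← a2.2.2.2.2.1, hnn]
  apply Subtype.ext
  rw [← flipOff_flipOff (T.HS σ₁.1 d (n σ₁)) σ₁.1, h, hHH, flipOff_flipOff]

theorem cnt_symm [Finite D] (d e : D) : T.cnt d e = T.cnt e d := by
  unfold cnt
  congr 1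
  apply congrArg
  funext σ
  exact propext ⟨T.rel_symm, T.rel_symm⟩

/-- Rotation invariance of the pair counts. -/
theorem cnt_rot [Finite D] [Finite V] (hP : T.Planar) {d e : D} (h0 : e ≠ d)
    (h1 : e ≠ T.nxt (T.nxt d)) : T.cnt d e = T.cnt (T.nxt d) (T.nxt (T.nxt e)) := by
  apply le_antisymm
  · rw [T.cnt_symm (T.nxt d)]
    exact T.cnt_le hP h0.symm
  · have hne : T.nxt (T.nxt e) ≠ T.nxt d := by
      intro h
      apply h1
      have := congrArg (fun x => T.nxt x) h
      simp only [T.nxt3] at this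
      exact this
    have := T.cnt_le hP hne
    rw [T.nxt3, T.nxt3] at this
    rw [T.cnt_symm (T.nxt d)]
    exact this

end Tri

end Vale.Agent.P148.R2.H258
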