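import Vale.Agent.P148.R2.H258.A6

namespace Vale.Agent.P148.R2.H258

open Function

namespace Tri

variable {V D : Type*} (T : Tri V D)

/-- Rotation around the source. -/
def rotEquiv : Equiv.Perm D where
  toFun := fun e => T.nxt (T.rev e)
  invFun := fun e => T.rev (T.nxt (T.nxt e))
  left_inv := fun e => by simp only; rw [T.nxt3, T.rev_rev]
  right_inv := fun e => by simp only; rw [T.rev_rev, T.nxt3]

def revEquiv : Equiv.Perm D where
  toFun := T.rev
  invFun := T.rev
  left_inv := T.rev_rev
  right_inv := T.rev_rev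

open Classical in
/-- Around a vertex a face function changes an even number of times. -/
theorem vertex_even [Fintype D] {u : D → ZMod 2} (h1 : ∀ d, u (T.nxt d) = u d) (v : V) :
    ∑ e, (if T.src e = v ∧ T.tgt e ≠ v then u e + u (T.rev e) else 0) = 0 := by
  have e1 : ∑ e, (if T.src e = v then u e else 0) = ∑ e, (if T.src e = v then u (T.rev e) else 0) := by
    rw [← Equiv.sum_comp T.rotEquiv]
    apply Finset.sum_congr rfl
    intro e _
    change (if T.src (T.nxt (T.rev e)) = v then u (T.nxt (T.rev e)) else 0) = _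
    rw [src_nxt', tgt_rev, h1]
  have e2 : ∑ e, (if T.src e = v ∧ T.tgt e = v then u e else 0) =
      ∑ e, (if T.src e = v ∧ T.tgt e = v then u (T.rev e) else 0) := by
    rw [← Equiv.sum_comp T.revEquiv]
    apply Finset.sum_congr rfl
    intro e _
    change (if T.src (T.rev e) = v ∧ T.tgt (T.rev e) = v then u (T.rev e) else 0) = _
    rw [src_rev, tgt_rev]
    simp only [and_comm]
  have e3 : ∀ f : D → ZMod 2, ∑ e, (if T.src e = v ∧ T.tgt e ≠ v then f e else 0) =
      ∑ e, (if T.src e = v then f e else 0) + ∑ e, (if T.src e = v ∧ T.tgt e = v then f e else 0) := by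
    intro f
    rw [← Finset.sum_add_distrib]
    apply Finset.sum_congr rfl
    intro e _
    by_cases a : T.src e = v <;> by_cases b : T.tgt e = v <;> simp [a, b]
    generalize f e = c
    revert c; decide
  rw [e3]
  have e4 : ∀ (p : D → Prop) [DecidablePred p], ∑ e, (if p e then u e + u (T.rev e) else 0) =
      ∑ e, (if p e then u e else 0) + ∑ e, (if p e then u (T.rev e) else 0) := by
    intro p _
    rw [← Finset.sum_add_distrib]
    apply Finset.sum_congr rfl
    intro e _
    split_ifs <;> simp
  rw [e4 (fun e => T.src e = v), e4 (fun e => T.src e = v ∧ T.tgt e = v), e1, e2]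
  have e5 : ∀ a b : ZMod 2, a + a + (b + b) = 0 := by decide
  exact e5 _ _

theorem Walk.src_tgt {T : Tri V D} {u v : V} {l : List D} (h : T.Walk u v l) :
    l.map T.src ++ [v] = u :: l.map T.tgt := by
  induction h with
  | nil v => rfl
  | cons d w l _ ih => simp only [List.map_cons, List.cons_append, ih]

theorem Walk.tgt_nodup {T : Tri V D} {u : V} {l : List D} (h : T.Walk u u l)
    (hn : (l.map T.src).Nodup) : (l.map T.tgt).Nodup := by
  have h1 : (l.map T.src).Perm (l.map T.tgt) := by
    have h2 : (u :: l.map T.src).Perm (u :: l.map T.tgt) := by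
      rw [← h.src_tgt]
      exact (List.perm_append_singleton u (l.map T.src)).symm
    exact h2.cons_inv
  exact h1.nodup_iff.1 hn

theorem Walk.get_succ {T : Tri V D} {u v : V} {l : List D} (h : T.Walk u v l) :
    ∀ i (hi : i + 1 < l.length), T.src (l[i + 1]) = T.tgt (l[i]'(by omega)) := by
  induction h with
  | nil v => intro i hi; simp at hi
  | cons d w l hw ih =>
    intro i hi
    cases i with
    | zero =>
      simp only [List.getElem_cons_succ, List.getElem_cons_zero]
      rcases hw.casesOn' with ⟨h2, _⟩ | ⟨e, l', h2, h3, _⟩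
      · subst h2; simp at hi
      · subst h2; simpa using h3
    | succ i =>
      simp only [List.getElem_cons_succ]
      exact ih i (by simp only [List.length_cons] at hi; omega)

section

variable [Fintype D] (hP : T.Planar) {σ : V → Bool} {d : D} (h : T.Mi σ d)
  (hg : T.apex d ≠ T.src d) {l : List D}
  (hw : T.Walk (T.src d) (T.src d) (T.rev (T.nxt (T.nxt d)) :: l))
  (hn : ((T.rev (T.nxt (T.nxt d)) :: l).map T.src).Nodup)
  (hc : ∀ e ∈ T.rev (T.nxt (T.nxt d)) :: l, σ (T.src e) = σ (T.src d) ∧ σ (T.tgt e) = σ (T.src d))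
  {N' : D → ZMod 2} (hN : T.Pot (T.rev (T.nxt (T.nxt d)) :: l) N') (hN0 : N' d = 0)

include hP h hg hc hN hN0

theorem pot'_member {g : D} (hr : T.Rel σ d g) : N' g = 0 := by
  obtain ⟨-, -, n, -, rfl, -⟩ := hr
  rw [T.pot_iter (σ := σ) ?_ hN h.bi n, hN0]
  intro e he
  rw [(hc e he).1, (hc e he).2]

theorem u_inG {e : D} (he : T.InG σ d e) (hne : T.src e ≠ T.tgt e) :
    (1 + T.pot σ d (T.rev e)) * N' (T.rev e) = 0 ∧ (1 + T.pot σ d e) * N' e = 0 := by
  obtain ⟨f, hf, hfe⟩ := he
  have hre : T.rev e = T.nxt (T.nxt f) := by rw [hfe, T.rev_rev]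
  have h1 : N' (T.rev e) = 0 := by
    rw [hre, hN.1, hN.1]
    exact T.pot'_member hP h hg hc hN hN0 hf
  refine ⟨by rw [h1, mul_zero], ?_⟩
  by_cases h2 : T.InG σ d (T.rev e)
  · obtain ⟨f', hf', hfe'⟩ := h2
    have h3 : e = T.nxt (T.nxt f') := by
      have := congrArg T.rev hfe'
      rwa [T.rev_rev, T.rev_rev] at this
    rw [h3, hN.1, hN.1, T.pot'_member hP h hg hc hN hN0 hf', mul_zero]
  · have h3 := T.pot_rev_one hP h hg hne ⟨f, hf, hfe⟩ h2
    have h4 : T.pot σ d (T.rev e) = 0 := by
      rw [hre, T.pot_nxt hP h hg, T.pot_nxt hP h hg]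
      exact T.pot_member hP h hg hf
    rw [h4] at h3
    have h5 : 1 + T.pot σ d e = 0 := by rw [add_comm, ← h3]
    rw [h5, zero_mul]

theorem delta_not {e : D} (h1 : ¬ T.InG σ d e) (h2 : ¬ T.InG σ d (T.rev e))
    (hne : T.src e ≠ T.tgt e) : (1 + T.pot σ d e) * N' e + (1 + T.pot σ d (T.rev e)) * N' (T.rev e) =
      (1 + T.pot σ d e) * T.mu (T.rev (T.nxt (T.nxt d)) :: l) e := by
  rw [T.pot_rev_not hP h hg hne h1 h2, ← hN.2 e (Or.inl hne)]
  ring

theorem delta_iff {e : D} (hne : T.src e ≠ T.tgt e)
    (hm : T.mu (T.rev (T.nxt (T.nxt d)) :: l) e = 1) :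
    T.NK σ d e = 1 ↔
      (1 + T.pot σ d e) * N' e + (1 + T.pot σ d (T.rev e)) * N' (T.rev e) = 0 := by
  by_cases h1 : T.InG σ d e
  · have := T.u_inG hP h hg hc hN hN0 h1 hne
    rw [this.1, this.2]
    simp [NK, h1]
  by_cases h2 : T.InG σ d (T.rev e)
  · have := T.u_inG hP h hg hc hN hN0 h2 (by rw [src_rev, tgt_rev]; exact hne.symm)
    rw [T.rev_rev] at this
    rw [this.1, this.2]
    simp [NK, h2]
  rw [T.delta_not hP h hg hc hN hN0 h1 h2 hne, hm, mul_one]
  have h3 := T.pot_rev_not hP h hg hne h1 h2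
  unfold NK
  rw [h3]
  simp only [h1, h2, false_or, and_self]
  constructor
  · intro h4
    by_contra h5
    have h6 : ¬ T.pot σ d e = 1 := by
      intro h7; apply h5; rw [h7]; decide
    rw [if_neg h6] at h4
    exact zero_ne_one h4
  · intro h4
    have : T.pot σ d e = 1 := by
      revert h4
      generalize T.pot σ d e = a
      revert a; decide
    rw [if_pos this]

include hw hn

/-- Every simple majority crossing stays on or beyond the cycle of the class. -/
theorem NK_of_mem (hl : ∀ e ∈ T.rev (T.nxt (T.nxt d)) :: l, T.src e ≠ T.tgt e) :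
    ∀ e ∈ T.rev (T.nxt (T.nxt d)) :: l, T.NK σ d e = 1 := by
  classical
  set Γ := T.rev (T.nxt (T.nxt d)) :: l with hΓ
  have htn := hw.tgt_nodup hn
  have hsinj : ∀ e ∈ Γ, ∀ f ∈ Γ, T.src e = T.src f → e = f := by
    intro e he f hf hef
    exact List.inj_on_of_nodup_map hn he hf hef
  have htinj : ∀ e ∈ Γ, ∀ f ∈ Γ, T.tgt e = T.tgt f → e = f := by
    intro e he f hf hef
    exact List.inj_on_of_nodup_map htn he hf hef
  have key : ∀ i (hi : i < Γ.length), T.NK σ d (Γ[i]) = 1 := by
    intro i
    induction i with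
    | zero =>
      intro hi
      have : Γ[0] = T.rev (T.nxt (T.nxt d)) := by simp [hΓ]
      rw [this]
      unfold NK
      rw [if_pos]
      left
      exact T.inG_self h
    | succ i ih =>
      intro hi
      have hi0 : i < Γ.length := by omega
      have h1 := ih hi0
      set g := Γ[i] with hgdef
      set g' := Γ[i + 1] with hgdef'
      have hgm : g ∈ Γ := List.getElem_mem _
      have hgm' : g' ∈ Γ := List.getElem_mem _
      have hs : T.src g' = T.tgt g := hw.get_succ i hi
      by_cases hrev : g' = T.rev g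
      · rw [hrev, NK_rev]; exact h1
      have r1 : T.rev g ∉ Γ := by
        intro hm
        apply hrev
        exact hsinj g' hgm' _ hm (by rw [hs, src_rev])
      have r2 : T.rev g' ∉ Γ := by
        intro hm
        apply hrev
        have := htinj _ hm g hgm (by rw [tgt_rev, hs])
        rw [← this, T.rev_rev]
      have hnd : Γ.Nodup := List.Nodup.of_map _ hn
      have m1 : T.mu Γ g = 1 := by
        unfold mu
        rw [List.count_eq_one_of_mem hnd hgm, List.count_eq_zero_of_not_mem r1]; norm_num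
      have m2 : T.mu Γ g' = 1 := by
        unfold mu
        rw [List.count_eq_one_of_mem hnd hgm', List.count_eq_zero_of_not_mem r2]; norm_num
      rw [T.delta_iff hP h hg hc hN hN0 (hl g' hgm') m2]
      rw [T.delta_iff hP h hg hc hN hN0 (hl g hgm) m1] at h1
      set u : D → ZMod 2 := fun e => (1 + T.pot σ d e) * N' e with hu
      have hu1 : ∀ e, u (T.nxt e) = u e := by
        intro e; simp only [hu]; rw [T.pot_nxt hP h hg, hN.1]
      change u g' + u (T.rev g') = 0
      change u g + u (T.rev g) = 0 at h1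
      have hve := T.vertex_even hu1 (T.tgt g)
      have hzero : ∀ e, e ≠ g' → e ≠ T.rev g →
          (if T.src e = T.tgt g ∧ T.tgt e ≠ T.tgt g then u e + u (T.rev e) else 0) = 0 := by
        intro e he1 he2
        split_ifs with hcond
        · have hne : T.src e ≠ T.tgt e := by rw [hcond.1]; exact hcond.2.symm
          by_cases q1 : T.InG σ d e
          · have := T.u_inG hP h hg hc hN hN0 q1 hne
            simp only [hu]
            rw [this.1, this.2, add_zero]
          by_cases q2 : T.InG σ d (T.rev e)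
          · have := T.u_inG hP h hg hc hN hN0 q2 (by rw [src_rev, tgt_rev]; exact hne.symm)
            rw [T.rev_rev] at this
            simp only [hu]
            rw [this.1, this.2, add_zero]
          have := T.delta_not hP h hg hc hN hN0 q1 q2 hne
          simp only [hu]
          rw [this, T.mu_zero, mul_zero]
          · intro hm
            exact he1 (hsinj e hm g' hgm' (by rw [hcond.1, hs]))
          · intro hm
            apply he2
            have := htinj _ hm g hgm (by rw [tgt_rev, hcond.1])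
            rw [← this, T.rev_rev]
        · rfl
      rw [Finset.sum_eq_add_of_mem g' (T.rev g) (Finset.mem_univ _) (Finset.mem_univ _) hrev
        (fun e _ he => hzero e he.1 he.2)] at hve
      have c1 : T.src g' = T.tgt g ∧ T.tgt g' ≠ T.tgt g := by
        refine ⟨hs, ?_⟩
        rw [← hs]
        exact (hl g' hgm').symm
      have c2 : T.src (T.rev g) = T.tgt g ∧ T.tgt (T.rev g) ≠ T.tgt g := by
        refine ⟨T.src_rev g, ?_⟩
        rw [tgt_rev]
        exact hl g hgm
      rw [if_pos c1, if_pos c2, T.rev_rev, add_comm (u (T.rev g)), h1, add_zero] at hve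
      exact hve
  intro e he
  obtain ⟨i, hi, rfl⟩ := List.getElem_of_mem he
  exact key i hi

/-- Adjacency of darts through faces and sides that are not loops. -/
def NLStep (T : Tri V D) (f g : D) : Prop := g = T.nxt f ∨ (T.src f ≠ T.tgt f ∧ g = T.rev f)

/-- The far side of a simple majority crossing is beyond the cycle of the class. -/
theorem NK_of_far (hl : ∀ e ∈ T.rev (T.nxt (T.nxt d)) :: l, T.src e ≠ T.tgt e) {e : D}
    (hconn : Relation.EqvGen T.NLStep d e) (hne : T.src e ≠ T.tgt e)
    (h1 : N' e = 1) (h2 : N' (T.rev e) = 1) : T.NK σ d e = 1 := by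
  have hmem := T.NK_of_mem hP h hg hw hn hc hN hN0 hl
  set Γ := T.rev (T.nxt (T.nxt d)) :: l with hΓ
  set u : D → ZMod 2 := fun e => (1 + T.pot σ d e) * N' e with hu
  have hrev : ∀ f, T.src f ≠ T.tgt f → u (T.rev f) = u f := by
    intro f hf
    have hsum : u f + u (T.rev f) = 0 := by
      by_cases hm : T.mu Γ f = 1
      · have hfm : f ∈ Γ ∨ T.rev f ∈ Γ := by
          by_contra hc'
          push Not at hc'
          rw [T.mu_zero hc'.1 hc'.2] at hm
          exact absurd hm (by decide)
        have hNK : T.NK σ d f = 1 := by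
          rcases hfm with hfm | hfm
          · exact hmem f hfm
          · rw [← T.NK_rev]; exact hmem _ hfm
        exact (T.delta_iff hP h hg hc hN hN0 hf hm).1 hNK
      · have hm0 : T.mu Γ f = 0 := by
          revert hm
          generalize T.mu Γ f = a
          revert a; decide
        by_cases q1 : T.InG σ d f
        · have := T.u_inG hP h hg hc hN hN0 q1 hf
          simp only [hu]
          rw [this.1, this.2, add_zero]
        by_cases q2 : T.InG σ d (T.rev f)
        · have := T.u_inG hP h hg hc hN hN0 q2 (by rw [src_rev, tgt_rev]; exact hf.symm)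
          rw [T.rev_rev] at this
          simp only [hu]
          rw [this.1, this.2, add_zero]
        have := T.delta_not hP h hg hc hN hN0 q1 q2 hf
        simp only [hu]
        rw [this, hm0, mul_zero]
    exact zmod2_add_eq_zero hsum
  have hconst : ∀ f g, Relation.EqvGen T.NLStep f g → u f = u g := by
    intro f g hfg
    induction hfg with
    | rel f g hh =>
      rcases hh with rfl | ⟨hh, rfl⟩
      · simp only [hu]; rw [T.pot_nxt hP h hg, hN.1]
      · exact (hrev f hh).symm
    | refl f => rfl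
    | symm f g _ ih => exact ih.symm
    | trans f g k _ _ ih1 ih2 => exact ih1.trans ih2
  have h0 : u d = 0 := by simp only [hu]; rw [hN0, mul_zero]
  have hue : u e = 0 := by rw [← hconst d e hconn, h0]
  have hur : u (T.rev e) = 0 := by rw [hrev e hne, hue]
  simp only [hu] at hue hur
  rw [h1, mul_one] at hue
  rw [h2, mul_one] at hur
  have p1 : T.pot σ d e = 1 := by
    revert hue
    generalize T.pot σ d e = a
    revert a; decide
  have p2 : T.pot σ d (T.rev e) = 1 := by
    revert hur
    generalize T.pot σ d (T.rev e) = a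
    revert a; decide
  unfold NK
  rw [if_pos (Or.inr (Or.inr ⟨p1, p2⟩))]

end

/-- Arms of a class member. -/
theorem arm_tgt {σ : V → Bool} {d g : D} (h : T.Rel σ d g) : ∃ l, T.Walk (T.tgt d) (T.tgt g) l ∧
    ∀ e ∈ l, σ (T.src e) = σ (T.tgt d) ∧ σ (T.tgt e) = σ (T.tgt d) := by
  obtain ⟨hd, -, n, -, rfl, -⟩ := h
  refine ⟨_, T.rw_walk hd.bi n, ?_⟩
  intro e he
  obtain ⟨i, -, h1, h2⟩ := T.rw_mem hd.bi he
  rw [h1, h2]
  exact ⟨T.col_tgt_iter σ d _, T.col_tgt_iter σ d _⟩

theorem arm_src {σ : V → Bool} {d g : D} (h : T.Rel σ d g) : ∃ l, T.Walk (T.src d) (T.src g) l ∧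
    ∀ e ∈ l, σ (T.src e) = σ (T.src d) ∧ σ (T.tgt e) = σ (T.src d) := by
  obtain ⟨hd, -, n, -, rfl, -⟩ := h
  refine ⟨_, T.lw_walk hd.bi n, ?_⟩
  intro e he
  obtain ⟨i, -, h1, h2⟩ := T.lw_mem he
  rw [h1, h2]
  exact ⟨T.col_src_iter σ d _, T.col_src_iter σ d _⟩

/-- Two non loop darts of one face with different `NK`: the face has a member of the class. -/
theorem member_of_NK_ne [Finite D] (hP : T.Planar) {σ : V → Bool} {d : D} (h : T.Mi σ d)
    (hg : T.apex d ≠ T.src d) {e f : D} (hef : f = e ∨ f = T.nxt e ∨ f = T.nxt (T.nxt e))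
    (he : T.src e ≠ T.tgt e) (hf : T.src f ≠ T.tgt f) (hne : T.NK σ d e ≠ T.NK σ d f) :
    ∃ g, (g = e ∨ g = T.nxt e ∨ g = T.nxt (T.nxt e)) ∧ T.Rel σ d g := by
  by_contra hc
  push Not at hc
  have h0 := hc e (Or.inl rfl)
  have h1 := hc _ (Or.inr (Or.inl rfl))
  have h2 := hc _ (Or.inr (Or.inr rfl))
  apply hne
  rw [T.NK_face hP h hg h0 h1 h2 e (Or.inl rfl) he, T.NK_face hP h hg h0 h1 h2 f hef hf]

end Tri

end Vale.Agent.P148.R2.H258
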