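import Vale.Agent.P148.R2.H258.A4
import Vale.Agent.P148.R2.H258.A7

namespace Vale.Agent.P148.R2.H258

open Function ComplexConjugate

namespace Tri

variable {V D : Type*} (T : Tri V D)

theorem good_of_mi {σ : V → Bool} {d : D} (h : T.Mi σ d) (hg : T.apex d ≠ T.src d) : T.Good d := by
  refine ⟨fun hh => h.1 (by rw [hh]), fun hh => h.1 ?_, hg⟩
  rw [hh, h.2]

/-- Every member of the class of a good dart is good. -/
theorem good_of_rel [Finite D] (hP : T.Planar) {σ : V → Bool} {d g : D} (h : T.Rel σ d g)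
    (hg : T.apex d ≠ T.src d) : T.Good g := by
  obtain ⟨m, f, -, -, -, -, -, hrel, hnd⟩ := T.class_cycle hP h.1 hg
  obtain ⟨i, hi, rfl⟩ := (hrel g).1 h
  exact T.good_of_mi h.2.1 (hnd i hi)

section

variable [Finite D] (hP : T.Planar) {σ : V → Bool} {d : D} (h : T.Mi σ d)
  (hg : T.apex d ≠ T.src d)
include hP h hg

open Classical in
/-- Values of `NK`. -/
theorem NK_eq {e : D} (hne : T.src e ≠ T.tgt e) : T.NK σ d e =
    (if T.pot σ d e = 1 then 1 else 0) + (if T.Rel σ d (T.nxt e) then 1 else 0) := by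
  by_cases h0 : T.Rel σ d e
  · have hp := T.pot_member hP h hg h0
    have h1 : ¬ T.Rel σ d (T.nxt e) := fun hh => T.mi_face1 h0.2.1 hh.2.1
    rw [(T.NK_member hP h hg h0).1, hp]
    simp [h1]
  by_cases h1 : T.Rel σ d (T.nxt e)
  · have hp := T.pot_member hP h hg h1
    rw [T.pot_nxt hP h hg] at hp
    have := (T.NK_member hP h hg h1).2.2
    rw [T.nxt3] at this
    rw [this, hp]
    simp [h1]
  by_cases h2 : T.Rel σ d (T.nxt (T.nxt e))
  · have hp := T.pot_member hP h hg h2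
    rw [T.pot_nxt hP h hg, T.pot_nxt hP h hg] at hp
    have := (T.NK_member hP h hg h2).2.1
    rw [T.nxt3] at this
    rw [this, hp]
    simp [h1]
  · rw [T.NK_face hP h hg h0 h1 h2 e (Or.inl rfl) hne]
    simp [h1]

open Classical in
/-- Contour sums of `NK` around all faces. -/
theorem contour_NK (x : V → ℂ) (g : D) :
    T.NK σ d g * (x (T.tgt g) - x (T.src g)) +
      T.NK σ d (T.nxt g) * (x (T.tgt (T.nxt g)) - x (T.src (T.nxt g))) +
      T.NK σ d (T.nxt (T.nxt g)) * (x (T.tgt (T.nxt (T.nxt g))) - x (T.src (T.nxt (T.nxt g)))) =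
      (if T.Rel σ d g then x (T.src g) - x (T.apex g) else 0) +
      (if T.Rel σ d (T.nxt g) then x (T.src (T.nxt g)) - x (T.apex (T.nxt g)) else 0) +
      (if T.Rel σ d (T.nxt (T.nxt g)) then x (T.src (T.nxt (T.nxt g))) -
        x (T.apex (T.nxt (T.nxt g))) else 0) := by
  have hno : ∀ g, T.Rel σ d g → ¬ T.Rel σ d (T.nxt g) ∧ ¬ T.Rel σ d (T.nxt (T.nxt g)) :=
    fun g h0 => ⟨fun hh => T.mi_face1 h0.2.1 hh.2.1, fun hh => T.mi_face2 h0.2.1 hh.2.1⟩
  by_cases h0 : T.Rel σ d g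
  · obtain ⟨h1, h2⟩ := hno g h0
    rw [T.contour_member hP h hg x h0, if_pos h0, if_neg h1, if_neg h2]; ring
  by_cases h1 : T.Rel σ d (T.nxt g)
  · obtain ⟨h2, -⟩ := hno _ h1
    have := T.contour_member hP h hg x h1
    rw [T.nxt3] at this
    rw [if_neg h0, if_pos h1, if_neg h2, zero_add, add_zero, ← this]; ring
  by_cases h2 : T.Rel σ d (T.nxt (T.nxt g))
  · have := T.contour_member hP h hg x h2
    rw [T.nxt3] at this
    rw [if_neg h0, if_neg h1, if_pos h2, zero_add, zero_add, ← this]; ring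
  · rw [T.contour_not hP h hg x h0 h1 h2, if_neg h0, if_neg h1, if_neg h2]; ring

end

open Classical in
/-- Probability (given that `o` is a minority dart) that the edge of `e` is on or beyond the cycle. -/
noncomputable def HH [Fintype V] (o e : D) : ℂ :=
  4 / 2 ^ Fintype.card V * ∑ σ : V → Bool, if T.Mi σ o then T.NK σ o e else 0

open Classical in
noncomputable def KK [Fintype V] (o e : D) : ℂ :=
  4 / 2 ^ Fintype.card V * ∑ σ : V → Bool, if T.Mi σ o ∧ T.pot σ o e = 1 then 1 else 0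

/-- Probability (given that `o` is a minority dart) that `e` is in the class of `o`. -/
noncomputable def cc [Fintype V] (o e : D) : ℂ := 4 / 2 ^ Fintype.card V * (T.cnt o e : ℂ)

theorem two_pow_ne (n : ℕ) : (2 : ℂ) ^ n ≠ 0 := pow_ne_zero _ two_ne_zero

open Classical in
theorem mi_sum [Fintype V] {o : D} (ho : T.Good o) :
    4 / 2 ^ Fintype.card V * (∑ σ : V → Bool, if T.Mi σ o then (1 : ℂ) else 0) = 1 := by
  have := T.four_mul_mi ho
  have h2 := two_pow_ne (Fintype.card V)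
  field_simp
  exact this

section

variable [Fintype V] [Finite D] (hP : T.Planar) {o : D} (ho : T.Good o)

theorem HH_rev (o e : D) : T.HH o (T.rev e) = T.HH o e := by
  unfold HH
  simp only [T.NK_rev]

include hP ho

theorem HH_eq {e : D} (hne : T.src e ≠ T.tgt e) : T.HH o e = T.KK o e + T.cc o (T.nxt e) := by
  classical
  unfold HH KK cc
  rw [T.cnt_eq_sum, ← mul_add, ← Finset.sum_add_distrib]
  congr 1
  apply Finset.sum_congr rfl
  intro σ _
  by_cases hm : T.Mi σ o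
  · simp only [hm, if_true, true_and]
    rw [T.NK_eq hP hm ho.2.2 hne]
  · have : ¬ T.Rel σ o (T.nxt e) := fun hh => hm hh.1
    simp [hm, this]

theorem KK_nxt (e : D) : T.KK o (T.nxt e) = T.KK o e := by
  classical
  unfold KK
  congr 1
  apply Finset.sum_congr rfl
  intro σ _
  by_cases hm : T.Mi σ o
  · rw [T.pot_nxt hP hm ho.2.2]
  · simp [hm]

theorem HH_minority {e : D} (he : T.src e = T.tgt o) : T.HH o e = 0 := by
  unfold HH
  rw [Finset.sum_eq_zero, mul_zero]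
  intro σ _
  split_ifs with hm
  · exact T.NK_minority hP hm ho.2.2 he
  · rfl

theorem HH_minority' {e : D} (he : T.tgt e = T.tgt o) : T.HH o e = 0 := by
  rw [← T.HH_rev]
  exact T.HH_minority hP ho (by rw [T.src_rev, he])

theorem HH_far : T.HH o (T.nxt (T.nxt o)) = 1 := by
  classical
  unfold HH
  rw [← T.mi_sum ho]
  congr 1
  apply Finset.sum_congr rfl
  intro σ _
  split_ifs with hm
  · exact (T.NK_member hP hm ho.2.2 (T.rel_refl hm)).2.2
  · rfl

/-- Contour sums of the observable around all faces. -/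
theorem contour_HH (x : V → ℂ) (g : D) :
    T.HH o g * (x (T.tgt g) - x (T.src g)) +
      T.HH o (T.nxt g) * (x (T.tgt (T.nxt g)) - x (T.src (T.nxt g))) +
      T.HH o (T.nxt (T.nxt g)) * (x (T.tgt (T.nxt (T.nxt g))) - x (T.src (T.nxt (T.nxt g)))) =
      T.cc o g * (x (T.src g) - x (T.apex g)) +
      T.cc o (T.nxt g) * (x (T.src (T.nxt g)) - x (T.apex (T.nxt g))) +
      T.cc o (T.nxt (T.nxt g)) * (x (T.src (T.nxt (T.nxt g))) - x (T.apex (T.nxt (T.nxt g)))) := by
  classical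
  unfold HH cc
  rw [T.cnt_eq_sum, T.cnt_eq_sum, T.cnt_eq_sum]
  simp only [mul_assoc]
  rw [← mul_add, ← mul_add, ← mul_add, ← mul_add]
  congr 1
  simp only [Finset.sum_mul]
  rw [← Finset.sum_add_distrib, ← Finset.sum_add_distrib, ← Finset.sum_add_distrib,
    ← Finset.sum_add_distrib]
  apply Finset.sum_congr rfl
  intro σ _
  by_cases hm : T.Mi σ o
  · simp only [hm, if_true]
    have := T.contour_NK hP hm ho.2.2 x g
    rw [this]
    simp only [ite_mul, one_mul, zero_mul]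
  · have h1 : ∀ e, ¬ T.Rel σ o e := fun e hh => hm hh.1
    simp [hm, h1]

end

theorem Good.nxt' {T : Tri V D} {d : D} (h : T.Good d) : T.Good (T.nxt (T.nxt d)) := h.nxt.nxt

theorem cc_rot [Fintype V] [Finite D] (hP : T.Planar) {o e : D} (h0 : o ≠ e)
    (h1 : o ≠ T.nxt (T.nxt e)) : T.cc o e = T.cc (T.nxt (T.nxt o)) (T.nxt e) := by
  unfold cc
  rw [T.cnt_symm o e, T.cnt_rot hP h0 h1, T.cnt_symm]

/-- The three observables at the three darts of the outer face add up to one. -/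
theorem sum_HH [Fintype V] [Finite D] (hP : T.Planar) {o : D} (ho : T.Good o) {e : D}
    (hconn : Relation.EqvGen T.NLStep o e) (hne : T.src e ≠ T.tgt e) :
    T.HH o e + T.HH (T.nxt o) e + T.HH (T.nxt (T.nxt o)) e = 1 := by
  set F : D → ℂ := fun e => (T.KK o e + T.cc o (T.nxt e)) +
    (T.KK (T.nxt o) e + T.cc (T.nxt o) (T.nxt e)) +
    (T.KK (T.nxt (T.nxt o)) e + T.cc (T.nxt (T.nxt o)) (T.nxt e)) with hF
  have hFS : ∀ e, T.src e ≠ T.tgt e →
      T.HH o e + T.HH (T.nxt o) e + T.HH (T.nxt (T.nxt o)) e = F e := by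
    intro e he
    rw [T.HH_eq hP ho he, T.HH_eq hP ho.nxt he, T.HH_eq hP ho.nxt.nxt he]
  have hrev : ∀ e, T.src e ≠ T.tgt e → F (T.rev e) = F e := by
    intro e he
    rw [← hFS e he, ← hFS (T.rev e) (by rw [src_rev, tgt_rev]; exact he.symm)]
    rw [T.HH_rev, T.HH_rev, T.HH_rev]
  have ho1 : T.HH o o = 0 := T.HH_minority' hP ho rfl
  have hval : ∀ p : D, T.Good p → T.HH p p = 0 ∧ T.HH p (T.nxt p) = 0 ∧
      T.HH p (T.nxt (T.nxt p)) = 1 := by
    intro p hp
    exact ⟨T.HH_minority' hP hp rfl, T.HH_minority hP hp (T.src_nxt' p), T.HH_far hP hp⟩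
  have h3 := T.nxt3 o
  obtain ⟨a1, a2, a3⟩ := hval o ho
  obtain ⟨b1, b2, b3⟩ := hval (T.nxt o) ho.nxt
  obtain ⟨c1, c2, c3⟩ := hval (T.nxt (T.nxt o)) ho.nxt.nxt
  rw [h3] at b3 c2 c3
  have hface : F o = 1 ∧ F (T.nxt o) = 1 ∧ F (T.nxt (T.nxt o)) = 1 := by
    refine ⟨?_, ?_, ?_⟩
    · rw [← hFS o ho.1, a1, b3, c2]; ring
    · rw [← hFS _ ho.nxt.1, a2, b1, c3]; ring
    · rw [← hFS _ ho.nxt.nxt.1, a3, b2, c1]; ring
  have hnx : ∀ e, F (T.nxt e) = F e := by
    intro e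
    by_cases q0 : e = o
    · rw [q0, hface.2.1, hface.1]
    by_cases q1 : e = T.nxt o
    · rw [q1, hface.2.2, hface.2.1]
    by_cases q2 : e = T.nxt (T.nxt o)
    · rw [q2, h3, hface.1, hface.2.2]
    have inj : ∀ {x y : D}, T.nxt x = T.nxt y → x = y := fun hxy => T.nxtEquiv.injective hxy
    have r0 : ∀ p : D, p ≠ T.nxt e → p ≠ e → T.cc p (T.nxt e) =
        T.cc (T.nxt (T.nxt p)) (T.nxt (T.nxt e)) := by
      intro p hp1 hp2
      apply T.cc_rot hP hp1
      rw [T.nxt3]; exact hp2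
    have n0 : o ≠ T.nxt e := by
      intro hh; apply q2; rw [hh, T.nxt3]
    have n1 : T.nxt o ≠ T.nxt e := fun hh => q0 (inj hh).symm
    have n2 : T.nxt (T.nxt o) ≠ T.nxt e := fun hh => q1 (inj hh).symm
    have e0 := r0 o n0 (Ne.symm q0)
    have e1 := r0 (T.nxt o) n1 (Ne.symm q1)
    have e2 := r0 (T.nxt (T.nxt o)) n2 (Ne.symm q2)
    rw [T.nxt3] at e1 e2
    simp only [hF]
    rw [T.KK_nxt hP ho, T.KK_nxt hP ho.nxt, T.KK_nxt hP ho.nxt.nxt, e0, e1, e2]
    ring
  have hconst : ∀ f g, Relation.EqvGen T.NLStep f g → F f = F g := by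
    intro f g hfg
    induction hfg with
    | rel f g hh =>
      rcases hh with rfl | ⟨hh, rfl⟩
      · exact (hnx f).symm
      · exact (hrev f hh).symm
    | refl f => rfl
    | symm f g _ ih => exact ih.symm
    | trans f g k _ _ ih1 ih2 => exact ih1.trans ih2
  rw [hFS e hne, ← hconst o e hconn, hface.1]

/-- The spin one combination of the class probabilities. -/
noncomputable def UU [Fintype V] (τ : ℂ) (o e : D) : ℂ :=
  T.cc o e + τ * T.cc (T.nxt o) e + τ ^ 2 * T.cc (T.nxt (T.nxt o)) e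

theorem UU_nxt [Fintype V] [Finite D] (hP : T.Planar) {τ : ℂ} (hτ : τ ^ 2 + τ + 1 = 0) {o e : D}
    (q0 : e ≠ o) (q1 : e ≠ T.nxt o) (q2 : e ≠ T.nxt (T.nxt o)) :
    T.UU τ o (T.nxt e) = τ ^ 2 * T.UU τ o e := by
  have h3 := tau_pow_three hτ
  have inj : ∀ {x y : D}, T.nxt x = T.nxt y → x = y := fun hxy => T.nxtEquiv.injective hxy
  have r0 : ∀ p : D, p ≠ e → p ≠ T.nxt (T.nxt e) → T.cc p e =
      T.cc (T.nxt (T.nxt p)) (T.nxt e) := fun p hp1 hp2 => T.cc_rot hP hp1 hp2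
  have n0 : o ≠ T.nxt (T.nxt e) := by
    intro hh; apply q1; rw [hh, T.nxt3]
  have n1 : T.nxt o ≠ T.nxt (T.nxt e) := by
    intro hh; apply q2; rw [inj hh, T.nxt3]
  have n2 : T.nxt (T.nxt o) ≠ T.nxt (T.nxt e) := fun hh => q0 (inj (inj hh)).symm
  have e0 := r0 o (Ne.symm q0) n0
  have e1 := r0 (T.nxt o) (Ne.symm q1) n1
  have e2 := r0 (T.nxt (T.nxt o)) (Ne.symm q2) n2
  rw [T.nxt3] at e1 e2
  unfold UU
  rw [e0, e1, e2]
  linear_combination (-τ * T.cc (T.nxt o) (T.nxt e) - T.cc o (T.nxt e)) * h3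

end Tri

end Vale.Agent.P148.R2.H258
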